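import Crest.Agent.X212.Prf6.Loc

-- ▼ part X212/Arx49/Cur
section

/-!
# Row 212, PERF / ARCX (helper49), part 1: immersed curves, closing up, blending
-/

set_option autoImplicit false
set_option linter.unusedSectionVars false
noncomputable section
open Set Filter Topology Function Complex
open scoped ContDiff Manifold

namespace Crest.Agent.X212.Arx49

open Crest.Agent.X212.Prf6

variable {M N : Type*} [TopologicalSpace M] [ChartedSpace ℂ M] [IsManifold IC ∞ M]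
  [TopologicalSpace N] [ChartedSpace ℂ N] [IsManifold IC ∞ N]

/-- `γ` is a smooth immersion at `t` -/
def Imm (γ : ℝ → M) (t : ℝ) : Prop :=
  ContMDiffAt IR IC ∞ γ t ∧ (show ℂ from mfderiv IR IC γ t (1 : ℝ)) ≠ 0

variable {γ γ' : ℝ → M} {t : ℝ}

theorem Imm.congr (h : Imm γ t) (e : γ' =ᶠ[𝓝 t] γ) : Imm γ' t :=
  ⟨h.1.congr_of_eventuallyEq e, by rw [e.mfderiv_eq]; exact h.2⟩

theorem ld_inj {F : M → N} {x : M} (hF : IsLocalDiffeomorphAt IC IC ∞ F x) :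
    Injective (mfderiv IC IC F x) :=
  (LinearMap.equivOfDetNeZero (show ℂ →L[ℝ] ℂ from mfderiv IC IC F x).toLinearMap
    (dt_ne hF)).injective

theorem Imm.comp {F : M → N} (hF : IsLocalDiffeomorphAt IC IC ∞ F (γ t)) (h : Imm γ t) :
    Imm (fun s => F (γ s)) t := by
  refine ⟨hF.contMDiffAt.comp t h.1, fun h0 => h.2 ?_⟩
  rw [show (fun s => F (γ s)) = F ∘ γ from rfl, mfderiv_comp t
    (hF.contMDiffAt.mdifferentiableAt (by simp)) (h.1.mdifferentiableAt (by simp))] at h0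
  exact (injective_iff_map_eq_zero _).1 (ld_inj hF) _ h0

theorem imm_iff {c : ℝ → ℂ} : Imm c t ↔ ContDiffAt ℝ ∞ c t ∧ deriv c t ≠ 0 := by
  unfold Imm
  rw [contMDiffAt_iff_contDiffAt, mfderiv_eq_fderiv]
  rfl

theorem Imm.aff {a b : ℝ} (ha : a ≠ 0) (h : Imm γ (a * t + b)) :
    Imm (fun s => γ (a * s + b)) t := by
  have h1 : ContMDiffAt IR IR ∞ (fun s : ℝ => a * s + b) t :=
    contMDiffAt_iff_contDiffAt.2 (by fun_prop)
  refine ⟨ContMDiffAt.comp (g := γ) t h.1 h1, fun h0 => h.2 ?_⟩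
  have h2 : HasDerivAt (fun s : ℝ => a * s + b) a t := by
    simpa using ((hasDerivAt_id t).const_mul a).add_const b
  rw [show (fun s => γ (a * s + b)) = γ ∘ fun s : ℝ => a * s + b from rfl,
    mfderiv_comp (g := γ) t (h.1.mdifferentiableAt (by simp)) (h1.mdifferentiableAt (by simp)),
    mfderiv_eq_fderiv, h2.hasFDerivAt.fderiv] at h0
  have h3 : (show ℝ →L[ℝ] ℂ from mfderiv IR IC γ (a * t + b)) ((1 : ℝ) • a) = 0 := h0
  rw [show (1 : ℝ) • a = a • (1 : ℝ) by simp, map_smul] at h3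
  exact (smul_eq_zero.1 h3).resolve_left ha

theorem Cv.immAt (h : Cv γ) (t : ℝ) : Imm γ t := ⟨h.sm t, h.imm t⟩

/-- the image of a curve under a diffeomorphism -/
theorem cv_map {o : Or M} {g : Equiv.Perm M} (hg : g ∈ G o) (h : Cv γ) : Cv fun t => g (γ t) :=
  ⟨fun t => ((Cv.immAt h t).comp (hg _).1).1, fun t => ((Cv.immAt h t).comp (hg _).1).2,
    fun s t => by rw [g.injective.eq_iff, h.inj]⟩

/-- closing up an arc whose ends overlap -/
theorem cv_of {Γ : ℝ → M} {T : ℝ} (hT : 0 < T) (hi : ∀ t ∈ Ico 0 T, Imm Γ t)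
    (hj : InjOn Γ (Ico 0 T)) (hp : ∀ᶠ t in 𝓝 (0 : ℝ), Γ (t + T) = Γ t) :
    Cv (fun s => Γ (T * Int.fract s)) ∧
      ∀ s, ∀ᶠ u in 𝓝 s, Γ (T * Int.fract u) = Γ (T * (u - ⌊s⌋)) := by
  have mem : ∀ s, T * Int.fract s ∈ Ico 0 T := fun s =>
    ⟨mul_nonneg hT.le (Int.fract_nonneg s), mul_lt_of_lt_one_right hT (Int.fract_lt_one s)⟩
  have key : ∀ s, ∀ᶠ u in 𝓝 s, Γ (T * Int.fract u) = Γ (T * (u - ⌊s⌋)) := by
    intro s
    have h1 := Int.floor_le s
    have h2 := Int.lt_floor_add_one s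
    have a : ∀ u, (⌊s⌋ : ℝ) ≤ u → u < ⌊s⌋ + 1 → Int.fract u = u - ⌊s⌋ := fun u hu hu' => by
      rw [Int.fract, Int.floor_eq_iff.2 ⟨hu, hu'⟩]
    rcases h1.eq_or_lt with h | h
    · have h3 : Tendsto (fun u : ℝ => T * (u - ⌊s⌋)) (𝓝 s) (𝓝 0) := by
        have : Continuous fun u : ℝ => T * (u - ⌊s⌋) := by fun_prop
        simpa [h] using this.tendsto s
      filter_upwards [h3.eventually hp, Ioo_mem_nhds (show (⌊s⌋ : ℝ) - 1 < s by linarith) h2]
        with u hu hu'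
      rcases le_or_gt (⌊s⌋ : ℝ) u with h4 | h4
      · rw [a u h4 hu'.2]
      · have : ⌊u⌋ = ⌊s⌋ - 1 := Int.floor_eq_iff.2
          ⟨by push_cast; exact hu'.1.le, by push_cast; linarith⟩
        rw [← hu, Int.fract, this]
        congr 1; push_cast; ring
    · filter_upwards [Ioo_mem_nhds h h2] with u hu
      rw [a u hu.1.le hu.2]
  have im : ∀ s, Imm (fun s => Γ (T * Int.fract s)) s := fun s => by
    have h1 : Imm Γ (T * s + -(T * ⌊s⌋)) := by
      have := hi _ (mem s)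
      rwa [Int.fract, mul_sub, sub_eq_add_neg] at this
    refine (h1.aff hT.ne').congr ?_
    filter_upwards [key s] with u hu
    rw [hu]; congr 1; ring
  refine ⟨⟨fun s => (im s).1, fun s => (im s).2, fun s t => ⟨fun h => ?_, ?_⟩⟩, key⟩
  · obtain ⟨n, hn⟩ := Int.fract_eq_fract.1 (mul_left_cancel₀ hT.ne' (hj (mem s) (mem t) h))
    exact ⟨-n, by push_cast; linarith⟩
  · rintro ⟨n, rfl⟩
    rw [Int.fract_add_intCast]

/-- blending an incoming curve with the vertical axis, in the coordinate `1 / z` -/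
theorem blend {w : ℝ → ℂ} {t₀ : ℝ} (hw : ∀ᶠ t in 𝓝 t₀, ContDiffAt ℝ ∞ w t) (h0 : 0 < (w t₀).im)
    (h1 : 0 < (deriv w t₀).im) : ∃ (c : ℝ → ℂ) (T : ℝ), t₀ < T ∧ (∀ t ≤ t₀, c t = (w t)⁻¹) ∧
      (∀ t ∈ Ico t₀ T, Imm c t) ∧ (∀ᶠ t in 𝓝 T, c t = (t - T : ℝ) * I) ∧
      StrictMonoOn (fun t => (c t)⁻¹.im) (Ico t₀ T) := by
  set f₀ := (w t₀).im with hf₀
  have c1 : ContinuousAt (fun t => (w t).im) t₀ :=
    continuous_im.continuousAt.comp hw.self_of_nhds.continuousAt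
  have c2 : ContinuousAt (fun t => (deriv w t).im) t₀ :=
    continuous_im.continuousAt.comp (hw.self_of_nhds.derivWithin (m := 0) (by simp)).continuousAt
  obtain ⟨η₀, hη₀, hb⟩ := Metric.eventually_nhds_iff.1 (hw.and
    ((c1.eventually (Ioo_mem_nhds h0 (show f₀ < 2 * f₀ by linarith))).and
      (c2.eventually (lt_mem_nhds h1))))
  have m0 : 0 < (4 * f₀)⁻¹ := by positivity
  set η := min (η₀ / 2) (4 * f₀)⁻¹ with hη
  have η0 : 0 < η := lt_min (half_pos hη₀) m0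
  have η1 : η ≤ η₀ / 2 := min_le_left _ _
  have η2 : η ≤ (4 * f₀)⁻¹ := min_le_right _ _
  set T := t₀ + η + (4 * f₀)⁻¹ with hT
  set χ : ℝ → ℝ := fun t => Real.smoothTransition ((t - t₀) / η) with hχ
  have χs : ContDiff ℝ ∞ χ := Real.smoothTransition.contDiff.comp (by fun_prop)
  have χm : Monotone χ := Real.smoothTransition.monotone.comp fun a b h => by
    gcongr
  have χ0 : ∀ t ≤ t₀, χ t = 0 := fun t ht => Real.smoothTransition.zero_of_nonpos
    (div_nonpos_of_nonpos_of_nonneg (by linarith) η0.le)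
  have χ1 : ∀ t, t₀ + η ≤ t → χ t = 1 := fun t ht => Real.smoothTransition.one_of_one_le
    ((one_le_div η0).2 (by linarith))
  set v : ℝ → ℂ := fun t => ((1 - χ t : ℝ) : ℂ) * w t + ((χ t * (T - t)⁻¹ : ℝ) : ℂ) * I with hv
  have v1 : ∀ t, t₀ + η ≤ t → v t = ((T - t)⁻¹ : ℝ) * I := fun t ht => by simp [hv, χ1 t ht]
  have inv1 : ∀ t < T, HasDerivAt (fun u : ℝ => (T - u)⁻¹) (((T - t) ^ 2)⁻¹) t := fun t ht => by
    have := ((hasDerivAt_id' t).const_sub T).fun_inv (sub_pos.2 ht).ne'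
    simpa [div_eq_mul_inv] using this
  have inv2 : ∀ t < T, ContDiffAt ℝ ∞ (fun u : ℝ => (T - u)⁻¹) t := fun t ht =>
    ContDiffAt.inv (by fun_prop) (sub_pos.2 ht).ne'
  have oc : ∀ {g : ℝ → ℝ} {t : ℝ}, ContDiffAt ℝ ∞ g t → ContDiffAt ℝ ∞ (fun u => (g u : ℂ)) t :=
    fun h => ofRealCLM.contDiff.contDiffAt.comp _ h
  have P : ∀ t ∈ Ico t₀ T, ContDiffAt ℝ ∞ v t ∧ 0 < (deriv v t).im ∧ 0 < (v t).im := by
    intro t ht
    have p0 : 0 < (T - t)⁻¹ := inv_pos.2 (sub_pos.2 ht.2)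
    have p1 : 0 < ((T - t) ^ 2)⁻¹ := inv_pos.2 (pow_pos (sub_pos.2 ht.2) 2)
    rcases le_or_gt t (t₀ + η) with h | h
    · obtain ⟨a1, a2, a3⟩ := hb (show dist t t₀ < η₀ by
        rw [Real.dist_eq, abs_of_nonneg (by linarith [ht.1])]; linarith)
      have d1 : HasDerivAt χ (deriv χ t) t := (χs.differentiable (by simp) t).hasDerivAt
      have d2 : HasDerivAt w (deriv w t) t := (a1.differentiableAt (by simp)).hasDerivAt
      have d3 := ((d1.const_sub 1).ofReal_comp.mul d2).add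
        ((d1.mul (inv1 t ht.2)).ofReal_comp.mul_const I)
      have b0 : 0 ≤ deriv χ t := χm.deriv_nonneg
      have b1 : 0 ≤ χ t := Real.smoothTransition.nonneg _
      have b2 : χ t ≤ 1 := Real.smoothTransition.le_one _
      have b3 : (w t).im ≤ (T - t)⁻¹ := by
        refine a2.2.le.trans ?_
        rw [le_inv_comm₀ (by linarith) (sub_pos.2 ht.2)]
        have : (2 * f₀)⁻¹ = 2 * (4 * f₀)⁻¹ := by field_simp; norm_num
        linarith [ht.1]
      refine ⟨((oc (contDiffAt_const.sub χs.contDiffAt)).mul a1).add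
        ((oc (χs.contDiffAt.mul (inv2 t ht.2))).mul contDiffAt_const), ?_, ?_⟩
      · rw [show deriv v t = _ from d3.deriv]
        simp only [add_im, mul_im, ofReal_re, ofReal_im, I_im, I_re, mul_zero, zero_mul, add_zero,
          mul_one]
        rcases b1.eq_or_lt with e | e
        · rw [← e]; nlinarith [mul_nonneg b0 (sub_nonneg.2 b3)]
        · nlinarith [mul_nonneg b0 (sub_nonneg.2 b3), mul_pos e p1,
            mul_nonneg (sub_nonneg.2 b2) a3.le]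
      · simp only [hv, add_im, mul_im, ofReal_re, ofReal_im, I_im, I_re, mul_zero, zero_mul,
          add_zero, mul_one]
        nlinarith [mul_nonneg b1 (sub_nonneg.2 b3), a2.1]
    · have e : v =ᶠ[𝓝 t] fun u => (((T - u)⁻¹ : ℝ) : ℂ) * I := by
        filter_upwards [Ioi_mem_nhds h] with u hu using v1 u (le_of_lt hu)
      refine ⟨((oc (inv2 t ht.2)).mul contDiffAt_const).congr_of_eventuallyEq e, ?_, ?_⟩
      · rw [e.deriv_eq, ((inv1 t ht.2).ofReal_comp.mul_const I).deriv]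
        simpa only [mul_im, ofReal_re, ofReal_im, I_im, I_re, mul_zero, add_zero, mul_one] using p1
      · rw [v1 t h.le]
        simpa only [mul_im, ofReal_re, ofReal_im, I_im, I_re, mul_zero, add_zero, mul_one] using p0
  refine ⟨fun t => (v t)⁻¹, T, by linarith, fun t ht => by simp [hv, χ0 t ht], fun t ht => ?_,
    ?_, ?_⟩
  · obtain ⟨a1, a2, a3⟩ := P t ht
    have n0 : v t ≠ 0 := fun e => by rw [e] at a3; exact lt_irrefl _ a3
    have n1 : deriv v t ≠ 0 := fun e => by rw [e] at a2; exact lt_irrefl _ a2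
    refine imm_iff.2 ⟨a1.inv n0, ?_⟩
    rw [show deriv (fun t => (v t)⁻¹) t = _ from
      ((a1.differentiableAt (by simp)).hasDerivAt.inv n0).deriv]
    exact div_ne_zero (neg_ne_zero.2 n1) (pow_ne_zero 2 n0)
  · filter_upwards [Ioi_mem_nhds (show t₀ + η < T by linarith)] with t ht
    rw [v1 t (le_of_lt ht), mul_inv, inv_I, ← ofReal_inv, inv_inv]
    push_cast; ring
  · simp only [inv_inv]
    refine strictMonoOn_of_deriv_pos (convex_Ico _ _) (fun t ht =>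
      (continuous_im.continuousAt.comp (P t ht).1.continuousAt).continuousWithinAt) fun t ht => ?_
    obtain ⟨a1, a2, -⟩ := P t (interior_subset ht)
    rwa [(der_im (a1.differentiableAt (by simp)).hasDerivAt).deriv]

end Crest.Agent.X212.Arx49
end
end

-- ▼ part X212/Arx49/Arc

/-!
# Row 212, PERF / ARCX (helper49), part 2: a closed curve through a given vertical segment
-/

set_option autoImplicit false
set_option linter.unusedSectionVars false
noncomputable section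
open Set Filter Topology Function Complex Metric
open scoped ContDiff Manifold

namespace Crest.Agent.X212.Arx49

open Crest.Agent.X212.Prf6

variable {M : Type*} [TopologicalSpace M] [ChartedSpace ℂ M] [IsManifold IC ∞ M] [T2Space M]

theorem imm_vert (a : ℂ) (t : ℝ) : Imm (fun u : ℝ => a + u * I) t := by
  have h : HasDerivAt (fun u : ℝ => a + (u : ℂ) * I) (1 * I) t :=
    ((hasDerivAt_id' t).ofReal_comp.mul_const I).const_add a
  refine imm_iff.2 ⟨contDiffAt_const.add (ofRealCLM.contDiff.contDiffAt.mul contDiffAt_const), ?_⟩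
  rw [h.deriv]; simp

/-- the inverse of an injective chart is smooth -/
theorem inv_sm {o : Or M} {B : ℂ → M} {Ω : Set ℂ} (hΩ : IsOpen Ω) (hi : InjOn B Ω) {z : ℂ}
    (hz : z ∈ Ω) (hB : Pm oC o B z) : IsLocalDiffeomorphAt IC IC ∞ (invFunOn B Ω) (B z) :=
  Cyl58.ld_of_comp hB.1 (Cyl58.ld_congr (Cyl58.ld_id z) (by
    filter_upwards [hΩ.mem_nhds hz] with w hw using hi.leftInvOn_invFunOn hw))

/-- **ARC**: the vertical segment `B (I * [0, s₀])` is closed up through the connected set `W` -/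
theorem arc (o : Or M) {B : ℂ → M} {Ω : Set ℂ} (hΩ : IsOpen Ω) (hB : ∀ z ∈ Ω, Pm oC o B z)
    (hi : InjOn B Ω) {W : Set M} (hW : IsOpen W) (hc : IsPreconnected W) {s₀ s₁ R : ℝ}
    (h0 : 0 ≤ s₀) (h1 : s₀ < s₁) (hR : 0 < R) (hs : ∀ t ∈ Icc 0 s₁, (t : ℂ) * I ∈ Ω)
    (hb : closedBall 0 R ⊆ Ω) (w1 : ∀ t ∈ Icc 0 s₀, B (t * I) ∉ W)
    (w2 : ∀ t ∈ Ioc s₀ s₁, B (t * I) ∈ W) (w3 : ∀ z, ‖z‖ ≤ R → z.im < 0 → B z ∈ W) :
    ∃ (γ : ℝ → M) (T : ℝ), Cv γ ∧ s₀ < T ∧ (∀ t ∈ Ico (0 : ℝ) 1, s₀ < T * t → γ t ∈ W) ∧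
      ∀ t, 0 ≤ t → T * t ≤ s₀ → ∀ᶠ u in 𝓝 t, γ u = B ((T * u : ℝ) * I) := by
  set κ := R⁻¹ with hκ
  have κ0 : 0 < κ := inv_pos.2 hR
  have s10 : 0 < s₁ := h0.trans_lt h1
  set D : Set ℂ := {z | κ * normSq z ≤ -z.im} with hD
  have D1 : ∀ z ∈ D, ‖z‖ ≤ R := fun z hz => by
    have h2 : κ * normSq z ≤ -z.im := hz
    have h3 := (neg_le_abs z.im).trans (abs_im_le_norm z)
    rw [normSq_eq_norm_sq] at h2
    by_contra hn
    have h4 : 1 < κ * ‖z‖ := by rw [hκ, lt_inv_mul_iff₀ hR]; linarith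
    nlinarith [not_le.1 hn]
  have DΩ : D ⊆ Ω := fun z hz => hb (by simpa using D1 z hz)
  have Dc : IsCompact D := (isCompact_closedBall 0 R).of_isClosed_subset
    (isClosed_le (by fun_prop) (by fun_prop)) fun z hz => by simpa using D1 z hz
  have D2 : ∀ z : ℂ, κ ≤ z⁻¹.im → z ∈ D ∧ z ≠ 0 ∧ B z ∈ W := fun z hz => by
    have n0 : z ≠ 0 := by rintro rfl; simp at hz; linarith
    have n1 := normSq_pos.2 n0
    have h2 : z ∈ D := by rwa [inv_im, le_div_iff₀ n1] at hz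
    exact ⟨h2, n0, w3 z (D1 z h2) (by linarith [mul_pos κ0 n1, show κ * normSq z ≤ -z.im from h2])⟩
  have y1 : κ ≤ (((2 * κ : ℝ) : ℂ) * I)⁻¹⁻¹.im := by rw [inv_inv]; simp; linarith
  obtain ⟨φ, hφ, hn, hy⟩ := hom_gen o hW hc (w2 s₁ ⟨h1, le_rfl⟩) (D2 _ y1).2.2
  have hg := hφ.mem 1
  have hn1 := hn.near 1
  generalize φ 1 = g at hg hn1 hy
  have gW : ∀ x, g x ∈ W ↔ x ∈ W := mem_iff_of_fix fun x hx => hn1.fix hx
  set α : ℝ → M := fun t => g (B (t * I)) with hα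
  have iB : ∀ t : ℝ, (t : ℂ) * I ∈ Ω → Imm (fun u : ℝ => B (u * I)) t := fun t ht => by
    have := (imm_vert 0 t).comp (F := B) (by simpa using (hB _ ht).1)
    simpa using this
  have iα : ∀ t : ℝ, (t : ℂ) * I ∈ Ω → Imm α t := fun t ht => (iB t ht).comp (hg _).1
  have eα : ∀ t ∈ Icc 0 s₀, ∀ᶠ u in 𝓝 t, α u = B (u * I) := fun t ht =>
    (iB t (hs t ⟨ht.1, ht.2.trans h1.le⟩)).1.continuousAt.eventually (hn1.at (w1 t ht))
  obtain ⟨δ, δ0, δ1, hδ⟩ : ∃ δ, s₀ < δ ∧ δ < s₁ ∧ ∀ u ∈ Icc 0 δ, α u = B (u * I) := by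
    obtain ⟨ε, hε, h⟩ := Metric.eventually_nhds_iff.1 (eα s₀ ⟨h0, le_rfl⟩)
    refine ⟨min (s₀ + ε / 2) ((s₀ + s₁) / 2), lt_min (by linarith) (by linarith),
      (min_le_right _ _).trans_lt (by linarith), fun u hu => ?_⟩
    rcases le_or_gt u s₀ with h2 | h2
    · exact (eα u ⟨hu.1, h2⟩).self_of_nhds
    · refine h ?_
      rw [Real.dist_eq, abs_of_pos (by linarith)]
      linarith [hu.2.trans (min_le_left _ _)]
  have nD : ∀ u ∈ Ioc 0 δ, α u ∉ B '' D := fun u hu ⟨ζ, hζ, e⟩ => by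
    rw [hδ u ⟨hu.1.le, hu.2⟩] at e
    have h2 : κ * normSq ζ ≤ -ζ.im := hζ
    rw [hi (DΩ hζ) (hs u ⟨hu.1.le, hu.2.trans δ1.le⟩) e] at h2
    have h3 := mul_nonneg κ0.le (normSq_nonneg ((u : ℂ) * I))
    have h4 : ((u : ℂ) * I).im = u := by simp
    linarith [hu.1]
  set w : ℝ → ℂ := fun t => (invFunOn B Ω (α t))⁻¹ with hw
  have ew : ∀ {t ζ}, ζ ∈ Ω → B ζ = α t → w t = ζ⁻¹ := fun hζ e => by
    simp only [hw, ← e, hi.leftInvOn_invFunOn hζ]
  have sw : ∀ {t : ℝ} {ζ}, (t : ℂ) * I ∈ Ω → ζ ∈ Ω → ζ ≠ 0 → B ζ = α t → ContDiffAt ℝ ∞ w t :=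
    fun {t ζ} ht hζ n0 e => by
      have h2 := inv_sm hΩ hi hζ (hB ζ hζ)
      rw [e] at h2
      refine (imm_iff.1 ((iα t ht).comp h2)).1.inv ?_
      rwa [← e, hi.leftInvOn_invFunOn hζ]
  have αW : ∀ t ∈ Ioc s₀ s₁, α t ∈ W := fun t ht => (gW _).2 (w2 t ht)
  have B0 : B 0 ∉ W := by simpa using w1 0 ⟨le_rfl, h0⟩
  set T₀ : Set ℝ := Icc δ s₁ ∩ α ⁻¹' (B '' D) with hT₀
  have sub : ∀ t ∈ Icc δ s₁, t ∈ Icc 0 s₁ := fun t ht => ⟨by linarith [ht.1], ht.2⟩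
  have cT : IsCompact T₀ := isCompact_Icc.of_isClosed_subset
    (ContinuousOn.preimage_isClosed_of_isClosed
      (fun t ht => (iα t (hs t (sub t ht))).1.continuousAt.continuousWithinAt) isClosed_Icc
      (Dc.image_of_continuousOn fun z hz =>
        (hB z (DΩ hz)).1.contMDiffAt.continuousAt.continuousWithinAt).isClosed) inter_subset_left
  have sT : ∀ t ∈ T₀, ContDiffAt ℝ ∞ w t := fun t ⟨ht, ζ, hζ, e⟩ =>
    sw (hs t (sub t ht)) (DΩ hζ) (by
      rintro rfl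
      exact B0 (e ▸ αW t ⟨by linarith [ht.1], ht.2⟩)) e
  set l := κ / (2 * s₁) with hl
  have l0 : 0 < l := by positivity
  have l1 : l * s₁ = κ / 2 := by rw [hl]; field_simp
  have m1 : s₁ ∈ T₀ := ⟨⟨δ1.le, le_rfl⟩, _, (D2 _ y1).1, hy.symm⟩
  obtain ⟨t₀, m0, hmax⟩ := cT.exists_isMaxOn ⟨s₁, m1⟩ (f := fun t => (w t).im - l * t)
    fun t ht => ((continuous_im.continuousAt.comp (sT t ht).continuousAt).sub
      (by fun_prop)).continuousWithinAt
  have mx : ∀ t ∈ T₀, (w t).im - l * t ≤ (w t₀).im - l * t₀ := fun t ht => hmax ht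
  have t0 : δ < t₀ := lt_of_le_of_ne m0.1.1 fun e =>
    nD δ ⟨h0.trans_lt δ0, le_rfl⟩ (by have := m0.2; rwa [← e] at this)
  have f0 : κ < (w t₀).im := by
    have h2 := mx s₁ m1
    rw [ew (DΩ (D2 _ y1).1) hy.symm, inv_inv] at h2
    have h3 : (((2 * κ : ℝ) : ℂ) * I).im = 2 * κ := by simp
    nlinarith [mul_pos l0 (show 0 < t₀ by linarith)]
  have ev : ∀ᶠ t : ℝ in 𝓝 t₀, (t : ℂ) * I ∈ Ω ∧ δ < t ∧ ∃ ζ, κ < ζ⁻¹.im ∧ B ζ = α t := by
    obtain ⟨ht, ζ, hζ, e⟩ := m0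
    have e1 := ew (DΩ hζ) e
    have n0 : ζ ≠ 0 := by rintro rfl; rw [e1] at f0; simp at f0; linarith
    have h2 : ∀ᶠ z in 𝓝 ζ, κ < z⁻¹.im :=
      (continuous_im.continuousAt.comp (continuousAt_inv₀ n0)).eventually
        (lt_mem_nhds (by rwa [e1] at f0))
    have h3 := image_mem_map (m := B) h2
    rw [(hB ζ (DΩ hζ)).map_nhds, e] at h3
    have h4 : Continuous fun t : ℝ => (t : ℂ) * I := by fun_prop
    exact (h4.continuousAt.eventually (hΩ.mem_nhds (hs t₀ (sub _ ht)))).and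
      ((lt_mem_nhds t0).and ((iα t₀ (hs t₀ (sub _ ht))).1.continuousAt.eventually h3))
  have d0 : 0 < (deriv w t₀).im := by
    have h2 := (der_im ((sT t₀ m0).differentiableAt (by simp)).hasDerivAt).tendsto_slope
    refine l0.trans_le (ge_of_tendsto (h2.mono_left (nhdsLT_le_nhdsNE t₀)) ?_)
    filter_upwards [nhdsWithin_le_nhds ev, self_mem_nhdsWithin] with t ⟨_, a2, ζ, a3, a4⟩ ht
    have h3 := mx t ⟨⟨a2.le, (le_of_lt ht).trans m0.1.2⟩, ζ, (D2 ζ a3.le).1, a4⟩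
    rw [slope_def_field, le_div_iff_of_neg (sub_neg.2 ht)]
    linarith
  obtain ⟨c, T, hT, c1, c2, c3, c4⟩ := blend (w := w) (t₀ := t₀)
    (ev.mono fun t ⟨a1, _, ζ, a3, a4⟩ => sw a1 (DΩ (D2 ζ a3.le).1) (D2 ζ a3.le).2.1 a4)
    (κ0.trans f0) d0
  have T0 : 0 < T := by linarith
  have c5 : ∀ t ∈ Ioo t₀ T, (w t₀).im < (c t)⁻¹.im := fun t ht => by
    have := c4 ⟨le_rfl, hT⟩ ⟨ht.1.le, ht.2⟩ ht.1
    simpa only [c1 t₀ le_rfl, inv_inv] using this
  have c6 : ∀ t ∈ Ico t₀ T, c t ∈ D ∧ c t ≠ 0 ∧ B (c t) ∈ W := fun t ht => D2 _ (by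
    rcases ht.1.eq_or_lt with e | e
    · rw [← e, c1 t₀ le_rfl, inv_inv]; exact f0.le
    · exact f0.le.trans (c5 t ⟨e, ht.2⟩).le)
  classical
  set Γ : ℝ → M := fun t => if t ≤ t₀ then α t else B (c t) with hΓ
  have Γ1 : ∀ t < t₀, Γ =ᶠ[𝓝 t] α := fun t ht => by
    filter_upwards [Iio_mem_nhds ht] with u hu using if_pos (le_of_lt hu)
  have Γ2 : ∀ t, t₀ ≤ t → Γ =ᶠ[𝓝 t] fun u => B (c u) := fun t ht => by
    rcases ht.eq_or_lt with rfl | e
    · filter_upwards [ev] with u ⟨_, _, ζ, a3, a4⟩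
      simp only [hΓ]
      split_ifs with h
      · rw [c1 u h, ew (DΩ (D2 ζ a3.le).1) a4, inv_inv, a4]
      · rfl
    · filter_upwards [Ioi_mem_nhds e] with u hu using if_neg (not_le.2 hu)
  have sub' : ∀ t, 0 ≤ t → t ≤ t₀ → (t : ℂ) * I ∈ Ω := fun t a b => hs t ⟨a, b.trans m0.1.2⟩
  obtain ⟨k1, k2⟩ := cv_of (Γ := Γ) T0 (fun t ht => by
    rcases lt_or_ge t t₀ with h | h
    · exact (iα t (sub' t ht.1 h.le)).congr (Γ1 t h)
    · exact ((c2 t ⟨h, ht.2⟩).comp (hB _ (DΩ (c6 t ⟨h, ht.2⟩).1)).1).congr (Γ2 t h)) (by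
    have key : ∀ s t, 0 ≤ s → s ≤ t₀ → t ∈ Ioo t₀ T → α s ≠ B (c t) := fun s t a b ht e => by
      obtain ⟨a1, a2, a3⟩ := c6 t ⟨ht.1.le, ht.2⟩
      have s0 : s₀ < s := by
        by_contra hn
        exact w1 s ⟨a, not_lt.1 hn⟩ ((gW _).1 (show α s ∈ W from e ▸ a3))
      have s1 : δ < s := by
        by_contra hn
        exact nD s ⟨by linarith, not_lt.1 hn⟩ ⟨_, a1, e.symm⟩
      have h2 := mx s ⟨⟨s1.le, b.trans m0.1.2⟩, _, a1, e.symm⟩
      rw [ew (DΩ a1) e.symm] at h2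
      nlinarith [c5 t ht, mul_nonneg l0.le (sub_nonneg.2 b)]
    intro s hs' t ht e
    simp only [hΓ] at e
    split_ifs at e with a b b
    · simpa using hi (sub' s hs'.1 a) (sub' t ht.1 b) (g.injective e)
    · exact absurd e (key s t hs'.1 a ⟨not_le.1 b, ht.2⟩)
    · exact absurd e.symm (key t s ht.1 b ⟨not_le.1 a, hs'.2⟩)
    · have a' : s ∈ Ico t₀ T := ⟨(not_le.1 a).le, hs'.2⟩
      have b' : t ∈ Ico t₀ T := ⟨(not_le.1 b).le, ht.2⟩
      exact c4.injOn a' b' (by simp only [hi (DΩ (c6 s a').1) (DΩ (c6 t b').1) e])) (by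
    have h2 : Tendsto (fun t : ℝ => t + T) (𝓝 0) (𝓝 T) := by
      simpa using (continuous_add_const T).tendsto 0
    filter_upwards [h2.eventually (Γ2 T hT.le), h2.eventually c3, Γ1 0 (by linarith),
      eα 0 ⟨le_rfl, h0⟩] with t a b c d
    rw [a, b, c, d, add_sub_cancel_right])
  refine ⟨_, T, k1, by linarith, fun t ht h => ?_, fun t ht h => ?_⟩
  · simp only [Int.fract_eq_self.2 ht, hΓ]
    split_ifs with a
    · exact αW _ ⟨h, a.trans m0.1.2⟩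
    · exact (c6 _ ⟨(not_le.1 a).le, mul_lt_of_lt_one_right T0 ht.2⟩).2.2
  · have h2 : ⌊t⌋ = 0 := Int.floor_eq_zero_iff.2 ⟨ht, by nlinarith⟩
    have h3 : Tendsto (fun u : ℝ => T * u) (𝓝 t) (𝓝 (T * t)) :=
      (continuous_const_mul T).tendsto t
    filter_upwards [k2 t, h3.eventually (Γ1 _ (by linarith)),
      h3.eventually (eα _ ⟨mul_nonneg T0.le ht, h⟩)] with u a b c
    rw [a, h2, Int.cast_zero, sub_zero, b, c]

/-- **ARCX** -/
theorem arcx : Arcx := by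
  intro X U Z B hU hW hc hB h0 hZ
  obtain ⟨s, hs, hi⟩ := hB.injOn
  obtain ⟨r, hr, hb⟩ := Metric.mem_nhds_iff.1 (inter_mem (inter_mem hs hB.eventually)
    (inter_mem hZ (hB.1.contMDiffAt.continuousAt (hU.mem_nhds h0))))
  have m : ∀ t ∈ Icc 0 (r / 2), (t : ℂ) * I ∈ ball (0 : ℂ) r := fun t ht => by
    simp only [mem_ball_zero_iff, norm_mul, norm_real, norm_I, mul_one, Real.norm_eq_abs]
    rw [abs_of_nonneg ht.1]; linarith [ht.2]
  obtain ⟨γ, T, h1, h2, h3, h4⟩ := arc X.o (B := B) isOpen_ball (fun z hz => (hb hz).1.2)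
    (hi.mono fun z hz => (hb hz).1.1) hW hc le_rfl (half_pos hr) (half_pos hr) m
    (closedBall_subset_ball (half_lt_self hr))
    (fun t ht h => h.2 ((hb (m t ⟨ht.1, by linarith [ht.2]⟩)).2.1.2 (by
      simpa using le_antisymm ht.2 ht.1)))
    (fun t ht => ⟨(hb (m t ⟨ht.1.le, ht.2⟩)).2.2, fun h =>
      ht.1.ne' (by simpa using (hb (m t ⟨ht.1.le, ht.2⟩)).2.1.1 h)⟩)
    (fun z hz h => by
      have := hb (show z ∈ ball (0 : ℂ) r by simpa using hz.trans_lt (half_lt_self hr))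
      exact ⟨this.2.2, fun h' => h.ne (this.2.1.1 h')⟩)
  have h5 := h4 0 le_rfl (by simp)
  have key : ∀ t, γ t ∈ U \ Z ∨ (γ t = B 0 ∧ ∃ n : ℤ, t = n) := fun t => by
    have e : γ t = γ (Int.fract t) := ((h1.inj _ _).2 ⟨⌊t⌋, by simp⟩).symm
    rcases (Int.fract_nonneg t).eq_or_lt with h | h
    · refine Or.inr ⟨?_, ⌊t⌋, ?_⟩
      · rw [e, ← h, h5.self_of_nhds]; simp
      · rw [Int.fract] at h; linarith
    · exact Or.inl (e ▸ h3 _ ⟨h.le, Int.fract_lt_one t⟩ (mul_pos h2 h))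
  refine ⟨γ, h1, ?_, fun t ht => ((key t).resolve_left fun h => h.2 ht).2, T, h2, ?_⟩
  · rintro _ ⟨t, rfl⟩
    rcases key t with h | h
    · exact h.1
    · rw [h.1]; exact h0
  · simpa only [ofReal_mul] using h5

end Crest.Agent.X212.Arx49
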