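import Mathlib
import Crest.Agent.X212.Prf6.Loc
import Crest.Agent.X212.Lad50.Smale
import Crest.Agent.X212.Tub3.Main
import Crest.Agent.X212.Arx49.Arc
import Crest.Agent.X212.Prf6.Lf

-- ▼ part X212/Lad50/Coll
section

/-!
# Row 212, PERF-COLL (helper50): uniqueness of annulus charts with a given core
-/

set_option autoImplicit false
set_option linter.unusedSectionVars false
noncomputable section
open Set Filter Topology Function Complex
open scoped ContDiff Manifold

namespace Crest.Agent.X212.Lad50.Co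
open Prf6 Sm

theorem red (z : ℂ) : ∃ n : ℤ, ∃ w : ℂ, w.re ∈ Icc (0 : ℝ) 1 ∧ w.im = z.im ∧ z = w + n :=
  ⟨⌊z.re⌋, z - ⌊z.re⌋, by
    simpa using (Int.fract_lt_one z.re).le, by simp, by simp⟩

theorem per_bdd {f : ℂ → ℝ} (hf : Continuous f) (hp : ∀ z (n : ℤ), f (z + n) = f z) (r : ℝ) :
    ∃ M ≥ 0, ∀ z : ℂ, |z.im| ≤ r → |f z| ≤ M := by
  obtain ⟨M, hM⟩ := (isCompact_bx (-r) r).exists_bound_of_continuousOn hf.continuousOn
  refine ⟨max M 0, le_max_right _ _, fun z hz => ?_⟩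
  obtain ⟨n, w, h1, h2, rfl⟩ := red z
  rw [hp]
  exact (hM w ⟨h1, abs_le.1 (h2 ▸ hz)⟩).trans (le_max_left _ _)

theorem per_pos {f : ℂ → ℝ} (hf : Continuous f) (hp : ∀ z (n : ℤ), f (z + n) = f z)
    (h : ∀ t : ℝ, 0 < f t) : ∃ r > 0, ∃ m > 0, ∀ z : ℂ, |z.im| ≤ r → m ≤ f z := by
  obtain ⟨q, hq, hm⟩ := (isCompact_bx 0 0).exists_isMinOn ⟨0, by simp [bx, mem_reProdIm]⟩
    hf.continuousOn
  have hq0 : 0 < f q := by
    have : q = (q.re : ℂ) := Complex.ext (by simp) (by simpa using le_antisymm hq.2.2 hq.2.1)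
    rw [this]; exact h _
  obtain ⟨δ, hδ, hs⟩ := (isCompact_bx 0 0).exists_thickening_subset_open
    (isOpen_lt (continuous_const (y := f q / 2)) hf) fun z hz => by
      have : f q ≤ f z := hm hz
      simp only [mem_ofPred_eq]; linarith
  refine ⟨δ / 2, by linarith, f q / 2, by linarith, fun z hz => ?_⟩
  obtain ⟨n, w, h1, h2, rfl⟩ := red z
  rw [hp]
  refine le_of_lt (hs (Metric.mem_thickening_iff.2 ⟨w.re, ⟨by simpa using h1, by simp⟩, ?_⟩))
  rw [dist_eq_norm, show w - w.re = w.im * I by apply Complex.ext <;> simp]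
  simp only [norm_mul, norm_real, norm_I, mul_one, Real.norm_eq_abs]
  rw [h2]; linarith

/-- slow cut-off -/
theorem exists_slow {δ η : ℝ} (hδ : 0 < δ) (hη : 0 < η) : ∃ χ : ℝ → ℝ, ContDiff ℝ ∞ χ ∧
    (∀ y, 0 ≤ χ y ∧ χ y ≤ 1) ∧ (∀ y, δ < |y| → χ y = 0 ∧ deriv χ y = 0) ∧
    (∃ r > 0, ∀ y, |y| < r → χ y = 1) ∧ ∀ y, |deriv χ y| * |y| ≤ η := by
  obtain ⟨B, hB0, hB⟩ := exists_slope
  set κ := η / (2 * B) with hκ
  have hκ0 : 0 < κ := by positivity
  set s := Real.exp (-1 / κ) / 2 with hs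
  have hs0 : 0 < s := by positivity
  have hu : ∀ y : ℝ, 0 < y ^ 2 / δ ^ 2 + s := fun y => by positivity
  set χ : ℝ → ℝ := fun y => Real.smoothTransition (-κ * Real.log (y ^ 2 / δ ^ 2 + s)) with hχ
  have h0 : ∀ y, δ < |y| → χ y = 0 := fun y hy => by
    refine Real.smoothTransition.zero_of_nonpos ?_
    have h1 : 1 ≤ y ^ 2 / δ ^ 2 := by
      rw [one_le_div (by positivity), ← sq_abs y]; nlinarith
    nlinarith [Real.log_nonneg (show 1 ≤ y ^ 2 / δ ^ 2 + s by linarith)]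
  refine ⟨χ, Real.smoothTransition.contDiff.comp (contDiff_const.mul
    (ContDiff.log (by fun_prop) fun y => (hu y).ne')), fun y => ⟨Real.smoothTransition.nonneg _,
      Real.smoothTransition.le_one _⟩, fun y hy => ⟨h0 y hy, ?_⟩,
    ⟨δ * min s 1, by positivity, fun y hy => Real.smoothTransition.one_of_one_le ?_⟩, fun y => ?_⟩
  · have : χ =ᶠ[𝓝 y] fun _ => 0 :=
      ((isOpen_lt continuous_const continuous_abs).eventually_mem hy).mono fun x hx => h0 x hx
    rw [this.deriv_eq, deriv_const]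
  · have h1 : y ^ 2 / δ ^ 2 ≤ s := by
      have a1 := min_le_left s 1
      have a2 := min_le_right s 1
      have a3 : 0 < min s 1 := by positivity
      rw [div_le_iff₀ (by positivity), ← sq_abs y]
      calc |y| ^ 2 ≤ (δ * min s 1) ^ 2 := by gcongr
        _ = (min s 1 * min s 1) * δ ^ 2 := by ring
        _ ≤ s * δ ^ 2 := by gcongr; nlinarith
    have h2 : Real.log (y ^ 2 / δ ^ 2 + s) ≤ -1 / κ := by
      rw [Real.log_le_iff_le_exp (hu y)]; linarith
    have h3 : κ * (-1 / κ) = -1 := by field_simp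
    nlinarith
  · have h1 : HasDerivAt (fun y : ℝ => -κ * Real.log (y ^ 2 / δ ^ 2 + s))
        (-κ * (2 * y / δ ^ 2 / (y ^ 2 / δ ^ 2 + s))) y := by
      have := ((((hasDerivAt_pow 2 y).div_const (δ ^ 2)).add_const s).log (hu y).ne').const_mul (-κ)
      simpa using this
    have h2 := (((Real.smoothTransition.contDiff (n := 1)).differentiable (by simp)
      _).hasDerivAt.comp y h1).deriv
    rw [show deriv χ y = _ from h2, abs_mul, mul_assoc, ← abs_mul _ y]
    have h3 : |-κ * (2 * y / δ ^ 2 / (y ^ 2 / δ ^ 2 + s)) * y| ≤ 2 * κ := by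
      have h4 : -κ * (2 * y / δ ^ 2 / (y ^ 2 / δ ^ 2 + s)) * y =
          -(2 * κ * (y ^ 2 / δ ^ 2 / (y ^ 2 / δ ^ 2 + s))) := by ring
      have h5 : y ^ 2 / δ ^ 2 / (y ^ 2 / δ ^ 2 + s) ≤ 1 := (div_le_one (hu y)).2 (by linarith)
      rw [h4, abs_neg, abs_of_nonneg (by have := hu y; positivity)]
      nlinarith
    calc _ ≤ B * (2 * κ) := mul_le_mul (hB _) h3 (abs_nonneg _) hB0.le
      _ = η := by rw [hκ]; field_simp

theorem fd_per {F : ℂ → ℂ} (hp : ∀ z (n : ℤ), F (z + n) = F z + n) (z : ℂ) (n : ℤ) :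
    fderiv ℝ F (z + n) = fderiv ℝ F z := by
  rw [← fderiv_comp_add_right, funext fun w => hp w n, fderiv_add_const]

theorem line_der {F : ℂ → ℂ} (hF : ContDiff ℝ ∞ F) (z e : ℂ) (t : ℝ) :
    HasDerivAt (fun t : ℝ => F (z + t * e)) (fderiv ℝ F (z + t * e) e) t := by
  have h1 : HasDerivAt (fun t : ℝ => z + t * e) e t := by
    simpa using ((hasDerivAt_id t).ofReal_comp.mul_const e).const_add z
  exact (hF.differentiable (by simp) _).hasFDerivAt.comp_hasDerivAt t h1

/-- a periodic germ along the real axis is the end of a periodic isotopy supported in a strip -/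
theorem strip_iso {F : ℂ → ℂ} (hF : ∀ z, Pm oC oC F z) (hp : ∀ z (n : ℤ), F (z + n) = F z + n)
    (hr : ∀ t : ℝ, (F t).im = 0) (h1 : ∀ t : ℝ, 0 < (fderiv ℝ F t 1).re) {δ : ℝ} (hδ : 0 < δ) :
    ∃ κ, Iso oC κ ∧ (∀ t z (n : ℤ), κ t (z + n) = κ t z + n) ∧
      (∀ t (z : ℂ), δ < |z.im| → κ t z = z) ∧ ∃ r > 0, ∀ z : ℂ, |z.im| < r → κ 1 z = F z := by
  set σ := Real.smoothTransition with hσ
  have σ0 : ∀ s, 0 ≤ σ s := Real.smoothTransition.nonneg
  have σ1 : ∀ s, σ s ≤ 1 := Real.smoothTransition.le_one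
  have σs : ContDiff ℝ ∞ fun p : ℝ × ℂ => σ p.1 := Real.smoothTransition.contDiff.comp contDiff_fst
  have sl : ∀ {b : ℝ → ℂ → ℝ}, ContDiff ℝ ∞ (fun p : ℝ × ℂ => b p.1 p.2) → ∀ s z,
      DifferentiableAt ℝ (b s) z := fun hb s z =>
    (hb.comp (contDiff_const.prodMk contDiff_id)).differentiable (by simp) z
  have bd : ∀ {χ : ℝ → ℝ} {f : ℂ → ℝ} {r M : ℝ}, (∀ y, 0 ≤ χ y ∧ χ y ≤ 1) →
      (∀ y, r < |y| → χ y = 0 ∧ deriv χ y = 0) → 0 ≤ M → (∀ z : ℂ, |z.im| ≤ r → |f z| ≤ M) →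
      ∀ s (z : ℂ), |σ s * (χ z.im * f z)| ≤ M := by
    intro χ f r M a1 a2 a3 a4 s z
    rcases le_or_gt |z.im| r with h | h
    · rw [abs_mul, abs_mul, abs_of_nonneg (σ0 s), abs_of_nonneg (a1 _).1]
      calc _ ≤ 1 * (1 * M) := by
            gcongr
            exacts [mul_nonneg (a1 _).1 (abs_nonneg _), σ1 s, (a1 _).2, a4 z h]
        _ = M := by ring
    · simpa [(a2 _ h).1] using a3
  have hFs : ContDiff ℝ ∞ F := contDiff_iff_contDiffAt.2 fun z => (hF z).contDiffAt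
  have hFd : Continuous (fderiv ℝ F) := hFs.continuous_fderiv (by simp)
  -- the horizontal shear
  obtain ⟨r1, hr1, m1, hm1, ha⟩ := per_pos (f := fun z => (fderiv ℝ F z 1).re) (by fun_prop)
    (fun z n => by simp only [fd_per hp]) h1
  obtain ⟨χ, c1, c2, c3, ⟨ρ, hρ, c4⟩, -⟩ := exists_slow (lt_min hδ hr1) one_pos
  obtain ⟨M, hM0, hM⟩ := per_bdd (f := fun z => (F z).re - z.re)
    (by have := hFs.continuous; fun_prop) (fun z n => by simp [hp]) (min δ r1)
  have hb : ContDiff ℝ ∞ fun p : ℝ × ℂ => σ p.1 * (χ p.2.im * ((F p.2).re - p.2.re)) :=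
    σs.mul ((c1.comp (imCLM.contDiff.comp contDiff_snd)).mul
      ((reCLM.contDiff.comp (hFs.comp contDiff_snd)).sub (reCLM.contDiff.comp contDiff_snd)))
  obtain ⟨H, iH, eH⟩ := shear_iso 1 (b := fun s z => σ s * (χ z.im * ((F z).re - z.re))) hb
    (fun s z => by
      have h2 := (((der_re (line_der hFs z 1 0)).sub ((hasDerivAt_id (0 : ℝ)).const_add
        z.re)).const_mul (χ z.im)).const_mul (σ s)
      rw [fd_eq (sl (b := fun s z => σ s * (χ z.im * ((F z).re - z.re))) hb s z)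
        (d := σ s * (χ z.im * ((fderiv ℝ F z 1).re - 1))) (by simpa using h2)]
      rcases le_or_gt |z.im| (min δ r1) with h | h
      · have h3 := ha z (h.trans (min_le_right _ _))
        have h4 : σ s * χ z.im ≤ 1 := mul_le_one₀ (σ1 s) (c2 _).1 (c2 _).2
        have h5 : 0 ≤ σ s * χ z.im := mul_nonneg (σ0 s) (c2 _).1
        rcases h5.eq_or_lt with h6 | h6
        · rw [← mul_assoc, ← h6]; norm_num
        · nlinarith [mul_pos h6 (hm1.trans_le h3)]
      · simp [(c3 _ h).1])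
    (bd c2 c3 hM0 hM) (fun z => by simp [hσ])
  have pH : ∀ s z (n : ℤ), H s (z + n) = H s z + n := fun s z n => by
    simp only [eH, hp, add_re, add_im, intCast_re, intCast_im, add_zero, add_sub_add_right_eq_sub]
    ring
  have imH : ∀ s z, (H s z).im = z.im := fun s z => by simp [eH]
  set V : ℂ → ℂ := F ∘ ((H 1)⁻¹ : Equiv.Perm ℂ) with hV
  have eV : ∀ z, V (H 1 z) = F z := fun z => by simp [hV]
  have hVm : ∀ z, Pm oC oC V z := fun z => (hF _).comp (inv_mem (iH.mem 1) z)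
  have hVs : ContDiff ℝ ∞ V := contDiff_iff_contDiffAt.2 fun z => (hVm z).contDiffAt
  have hVd : Continuous (fderiv ℝ V) := hVs.continuous_fderiv (by simp)
  have pV : ∀ z (n : ℤ), V (z + n) = V z + n := fun z n => by
    obtain ⟨w, rfl⟩ := (H 1).surjective z
    rw [← pH, eV, eV, hp]
  have reV : ∀ z : ℂ, |z.im| < ρ → (V z).re = z.re := fun z hz => by
    obtain ⟨w, rfl⟩ := (H 1).surjective z
    rw [imH] at hz
    rw [eV, eH]
    simp [hσ, c4 _ hz]
  have imV : ∀ z : ℂ, z.im = 0 → (V z).im = 0 := fun z hz => by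
    obtain ⟨w, rfl⟩ := (H 1).surjective z
    rw [imH] at hz
    rw [eV, show w = (w.re : ℂ) from Complex.ext (by simp) (by simpa using hz), hr]
  -- the vertical shear
  obtain ⟨r2, hr2, m, hm, hd⟩ := per_pos (f := fun z => (fderiv ℝ V z I).im) (by fun_prop)
    (fun z n => by simp only [fd_per pV]) (fun t => by
      have h2 : ∀ v, (fderiv ℝ V t v).re = v.re := fun v => by
        have h3 := reCLM.hasFDerivAt.comp (t : ℂ) (hVs.differentiable (by simp) _).hasFDerivAt
        have h4 : (reCLM : ℂ → ℝ) =ᶠ[𝓝 (t : ℂ)] reCLM ∘ V := by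
          filter_upwards [(isOpen_lt (f := fun z : ℂ => |z.im|) (by fun_prop)
            continuous_const).mem_nhds (show |(t : ℂ).im| < ρ by simpa using hρ)] with z hz
          exact (reV z hz).symm
        exact congrArg (fun L : ℂ →L[ℝ] ℝ => L v)
          ((h3.congr_of_eventuallyEq h4).unique reCLM.hasFDerivAt)
      have h3 := (hVm t).det_pos
      rw [det_C, h2, h2] at h3
      simpa using h3)
  obtain ⟨K, hK0, hK⟩ := per_bdd (f := fun z => (fderiv ℝ V z I).im - 1) (by fun_prop)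
    (fun z n => by simp only [fd_per pV]) r2
  have mv : ∀ z : ℂ, |z.im| ≤ r2 → |(V z).im - z.im| ≤ K * |z.im| := fun z hz => by
    have := (convex_uIcc 0 z.im).norm_image_sub_le_of_norm_hasDerivWithin_le (C := K)
      (f := fun t : ℝ => (V (z.re + t * I)).im - t)
      (fun t _ => ((der_im (line_der hVs z.re I t)).sub (hasDerivAt_id t)).hasDerivWithinAt)
      (fun t ht => hK _ (by
        have := abs_sub_left_of_mem_uIcc ht
        simp only [sub_zero] at this
        simpa using this.trans hz)) left_mem_uIcc right_mem_uIcc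
    simpa [imV z.re (by simp)] using this
  have hm1 : 0 < min m 1 := lt_min hm one_pos
  obtain ⟨χ', d1, d2, d3, ⟨ρ', hρ', d4⟩, d5⟩ := exists_slow (lt_min hδ hr2)
    (show 0 < min m 1 / (2 * (K + 1)) by positivity)
  obtain ⟨M', hM0', hM'⟩ := per_bdd (f := fun z => (V z).im - z.im)
    (by have := hVs.continuous; fun_prop) (fun z n => by simp [pV]) (min δ r2)
  have hb' : ContDiff ℝ ∞ fun p : ℝ × ℂ => σ p.1 * (χ' p.2.im * ((V p.2).im - p.2.im)) :=
    σs.mul ((d1.comp (imCLM.contDiff.comp contDiff_snd)).mul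
      ((imCLM.contDiff.comp (hVs.comp contDiff_snd)).sub (imCLM.contDiff.comp contDiff_snd)))
  obtain ⟨W, iW, eW⟩ := shear_iso I (b := fun s z => σ s * (χ' z.im * ((V z).im - z.im))) hb'
    (fun s z => by
      have h0 : HasDerivAt (fun t : ℝ => z.im + t) 1 0 := (hasDerivAt_id (0 : ℝ)).const_add z.im
      have h2 := (((d1.differentiable (by simp) _).hasDerivAt.comp (0 : ℝ) h0).mul
        ((der_im (line_der hVs z I 0)).sub h0)).const_mul (σ s)
      rw [fd_eq (sl (b := fun s z => σ s * (χ' z.im * ((V z).im - z.im))) hb' s z)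
        (d := σ s * (deriv χ' z.im * ((V z).im - z.im) + χ' z.im * ((fderiv ℝ V z I).im - 1)))
        (by simpa using h2)]
      rcases le_or_gt |z.im| (min δ r2) with h | h
      · have h3 := hd z (h.trans (min_le_right _ _))
        have h4 : |deriv χ' z.im * ((V z).im - z.im)| ≤ min m 1 / 2 := by
          rw [abs_mul]
          calc _ ≤ |deriv χ' z.im| * (K * |z.im|) := by
                gcongr; exact mv z (h.trans (min_le_right _ _))
            _ = K * (|deriv χ' z.im| * |z.im|) := by ring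
            _ ≤ (K + 1) * (min m 1 / (2 * (K + 1))) := by gcongr; exacts [by linarith, d5 _]
            _ = _ := by field_simp
        have h5 : σ s * χ' z.im ≤ 1 := mul_le_one₀ (σ1 s) (d2 _).1 (d2 _).2
        have h6 : 0 ≤ σ s * χ' z.im := mul_nonneg (σ0 s) (d2 _).1
        have h7 := (abs_le.1 h4).1
        have h8 : -(min m 1 / 2) ≤ σ s * (deriv χ' z.im * ((V z).im - z.im)) := by
          nlinarith [σ0 s, σ1 s]
        have h9 : min m 1 ≤ 1 + σ s * χ' z.im * ((fderiv ℝ V z I).im - 1) := by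
          nlinarith [min_le_left m 1, min_le_right m 1]
        nlinarith
      · simp [(d3 _ h).1, (d3 _ h).2])
    (bd d2 d3 hM0' hM') (fun z => by simp [hσ])
  refine ⟨fun s => W s * H s, iW.mul iH, fun s z n => ?_, fun s z hz => ?_,
    min ρ ρ', lt_min hρ hρ', fun z hz => ?_⟩
  · simp only [Equiv.Perm.mul_apply, pH, eW, pV, add_im, intCast_im, add_zero]
    ring
  · have h2 : H s z = z := by simp [eH, (c3 _ ((min_le_left _ _).trans_lt hz)).1]
    simp [h2, eW, (d3 _ ((min_le_left _ _).trans_lt hz)).1]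
  · rw [Equiv.Perm.mul_apply, ← eV, eW, d4 _ (by rw [imH]; exact (lt_min_iff.1 hz).2)]
    have h2 := reV (H 1 z) (by rw [imH]; exact (lt_min_iff.1 hz).1)
    apply Complex.ext <;> simp [hσ, h2]

section
variable {M : Type*} [TopologicalSpace M] [T2Space M] [ChartedSpace ℂ M] [IsManifold IC ∞ M]
  {o : Or M} {A A' : ℂ → M}

theorem exists_lift (hA : An o A) (hA' : ∀ z, Pm oC o A' z) (hr : range A' ⊆ range A) :
    ∃ F : ℂ → ℂ, (∀ z, Pm oC oC F z) ∧ ∀ z, A (F z) = A' z := by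
  have h2 : (2 * Real.pi * I : ℂ) ≠ 0 := two_pi_I_ne_zero
  set E : M → ℂ := fun y => exp (2 * Real.pi * I * invFun A y) with hE
  have e1 : ∀ w, E (A w) = exp (2 * Real.pi * I * w) := fun w => by
    obtain ⟨n, hn⟩ := (hA.2 _ _).1 (invFun_eq (f := A) ⟨w, rfl⟩)
    simp only [hE]
    conv_rhs => rw [hn]
    rw [mul_add, exp_add, mul_comm _ (n : ℂ), exp_int_mul_two_pi_mul_I, mul_one]
  have e2 : Continuous (E ∘ A') := continuous_iff_continuousAt.2 fun z => by
    obtain ⟨w, hw⟩ := hr ⟨z, rfl⟩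
    have h3 : ContMDiffAt IC IC ∞ E (A w) := Cyl58.contMDiffAt_of_comp (hA.1 w).1 (by
      rw [show E ∘ A = _ from funext e1]
      exact (ContDiff.cexp (𝕜 := ℝ) (contDiff_const.mul contDiff_id)).contMDiff w)
    exact ContinuousAt.comp (hw ▸ h3.continuousAt) (cont_of_pm hA').continuousAt
  obtain ⟨L, hL, -, eL⟩ := exists_log e2 (fun _ => exp_ne_zero _) 0 rfl
  have e3 : ∀ z, A (L z / (2 * Real.pi * I)) = A' z := fun z => by
    obtain ⟨w, hw⟩ := hr ⟨z, rfl⟩
    have h3 := eL z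
    rw [comp_apply, ← hw, e1, exp_eq_exp_iff_exists_int] at h3
    obtain ⟨n, hn⟩ := h3
    rw [← hw, ← hA.per w n, hn]
    congr 1
    field_simp
  refine ⟨fun z => L z / (2 * Real.pi * I), fun z => ?_, e3⟩
  have h3 : Pm oC o (A ∘ fun z => L z / (2 * Real.pi * I)) z := by
    rw [show (A ∘ fun z => L z / (2 * Real.pi * I)) = A' from funext e3]; exact hA' z
  have h4 := Cyl58.ld_of_comp_left (hA.1 _).1 (hL.div_const _).continuousAt h3.1
  refine ⟨h4, ?_⟩
  have h5 := h3.2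
  rw [dt_comp (hA.1 _).mdiff (h4.contMDiffAt.mdifferentiableAt (by simp))] at h5
  have h6 := (hA.1 (L z / (2 * Real.pi * I))).2
  simp only [oC, one_mul, comp_apply] at h5 h6 ⊢
  rw [← mul_assoc] at h5
  exact (pos_iff_pos_of_mul_pos h5).1 h6

theorem coll_pos (hA : An o A) (hA' : An o A') {F : ℂ → ℂ} (hF : ∀ z, Pm oC oC F z)
    (e : ∀ z, A (F z) = A' z) (hr : ∀ t : ℝ, (F t).im = 0)
    (h1 : ∀ t : ℝ, 0 < (fderiv ℝ F t 1).re) {U : Set M} (hU : IsOpen U) (hc : core A ⊆ U) :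
    ∃ φ, Iso o φ ∧ NearI φ Uᶜ ∧ ∃ δ > 0, ∀ z : ℂ, |z.im| < δ → φ 1 (A z) = A' z := by
  have hFs : ContDiff ℝ ∞ F := contDiff_iff_contDiffAt.2 fun z => (hF z).contDiffAt
  have hFc := hFs.continuous
  have hf : ∀ t : ℝ, HasDerivAt (fun t : ℝ => (F t).re) (fderiv ℝ F t 1).re t := fun t => by
    simpa using der_re (line_der hFs 0 1 t)
  have hm := strictMono_of_hasDerivAt_pos hf h1
  have hk : ∀ z, ∃ n : ℤ, F (z + 1) = F z + n := fun z => (hA.2 _ _).1 (by
    rw [e, e]; simpa using (hA'.per z 1).symm)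
  have hc' : ∀ z, F (z + 1) - F z = F (0 + 1) - F 0 := fun z => by
    have := log_const (L := fun z => 2 * Real.pi * I * (F (z + 1) - F z)) (c := 1) (by fun_prop)
      (fun z => by
        obtain ⟨n, hn⟩ := hk z
        rw [hn, add_sub_cancel_left, mul_comm, exp_int_mul_two_pi_mul_I]) z 0
    exact mul_left_cancel₀ two_pi_I_ne_zero this
  have h2 : F (0 + 1) = F 0 + 1 := by
    obtain ⟨n, hn⟩ := hk 0
    have h3 : (F (1 : ℝ)).re = (F (0 : ℝ)).re + n := by simpa using congrArg Complex.re hn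
    have h4 : (0 : ℝ) < n := by linarith [hm zero_lt_one]
    have h5 : 0 < n := by exact_mod_cast h4
    have h6 : (1 : ℝ) ≤ n := by exact_mod_cast h5
    obtain ⟨t, ht, ht'⟩ := intermediate_value_Icc (f := fun t : ℝ => (F t).re) zero_le_one
      (by fun_prop) (show (F (0 : ℝ)).re + 1 ∈ _ from ⟨by linarith, by linarith⟩)
    have h7 : F t = F (0 : ℝ) + (1 : ℤ) := Complex.ext (by simpa using ht') (by rw [add_im, hr, hr]; simp)
    obtain ⟨k, hk'⟩ := (hA'.2 (0 : ℝ) t).1 (by rw [← e, ← e, h7, hA.per])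
    have h8 : t = k := by exact_mod_cast (by simpa using hk' : (t : ℂ) = k)
    have h9 : t ≠ 0 := by
      rintro rfl
      simp at ht'
    have h10 : (0 : ℝ) < k := h8 ▸ lt_of_le_of_ne ht.1 h9.symm
    have h11 : 0 < k := by exact_mod_cast h10
    have h12 : (1 : ℝ) ≤ k := by exact_mod_cast h11
    have h13 : t = 1 := le_antisymm ht.2 (h8 ▸ h12)
    rw [h13] at h7
    simpa using h7
  have h3 : ∀ z, F (z + 1) = F z + 1 := fun z => by linear_combination hc' z + h2
  have hp : ∀ z (n : ℤ), F (z + n) = F z + n := fun z n => by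
    have := (show Function.Periodic (fun z => F z - z) 1 from fun z => by
      simp only [h3]; ring).int_mul n z
    simp only [mul_one] at this
    linear_combination this
  obtain ⟨δ, hδ, hs⟩ := hA.tube hU hc
  obtain ⟨κ, k1, k2, k3, r, hr0, k4⟩ := strip_iso hF hp hr h1 (half_pos hδ)
  have ho : ∀ t, ∀ z : ℂ, z.im ∉ Icc (-(δ / 2)) (δ / 2) → ∃ n : ℤ, κ t z = z + n := fun t z hz =>
    ⟨0, by rw [k3 t z (lt_of_not_ge fun h => hz (abs_le.1 h))]; simp⟩
  refine ⟨fun t => tr A (κ t), hA.tr_iso k1 k2 ho, tr_nearI hA.1 (fun t => hA.wd (k2 t))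
    (isCompact_bx _ _) (fun t => hA.out (ho t)) ?_, r, hr0, fun z hz => ?_⟩
  · rw [disjoint_compl_right_iff_subset]
    rintro _ ⟨z, hz, rfl⟩
    exact hs z ((abs_le.2 hz.2).trans_lt (by linarith))
  · rw [(hA.wd (k2 1)).apply, k4 z hz, e]

end

theorem coll : Coll := by
  intro X A A' U hA hA' hc hU hAU
  obtain ⟨δ₀, hδ₀, B, hB, hBA, -, eB⟩ := hA'.thin (isOpenMap_of_pm hA.1).isOpen_range
    (hc ▸ core_subset A)
  obtain ⟨F, hF, e⟩ := exists_lift hA hB.1 hBA
  have hFs : ContDiff ℝ ∞ F := contDiff_iff_contDiffAt.2 fun z => (hF z).contDiffAt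
  have hFd : Continuous (fderiv ℝ F) := hFs.continuous_fderiv (by simp)
  have hr : ∀ t : ℝ, (F t).im = 0 := fun t => hA.mem_core.1 (by
    rw [e, eB _ (by simpa using hδ₀.le), hc]; exact ⟨t, rfl⟩)
  have hne : ∀ t : ℝ, (fderiv ℝ F t 1).re ≠ 0 := fun t h => by
    have h1 : HasDerivAt (fun t : ℝ => (F t).im) (fderiv ℝ F t 1).im t := by
      simpa using der_im (line_der hFs 0 1 t)
    rw [funext hr] at h1
    have h2 := (hF t).det_pos
    rw [det_C, h, h1.unique (hasDerivAt_const t 0)] at h2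
    simp at h2
  have hcont : Continuous fun t : ℝ => (fderiv ℝ F t 1).re := by fun_prop
  have sg : ∀ s t : ℝ, 0 < (fderiv ℝ F s 1).re → 0 < (fderiv ℝ F t 1).re := fun s t h => by
    by_contra h'
    obtain ⟨u, hu⟩ := intermediate_value_univ t s hcont ⟨not_lt.1 h', h.le⟩
    exact hne u hu
  by_cases h0 : 0 < (fderiv ℝ F (0 : ℝ) 1).re
  · obtain ⟨φ, h1, h2, δ, hδ, h3⟩ := coll_pos hA hB hF e hr (fun t => sg 0 t h0) hU hAU
    refine ⟨φ, h1, h2, 1, .inl rfl, min δ δ₀, lt_min hδ hδ₀, fun z hz => ?_⟩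
    rw [h3 z (lt_min_iff.1 hz).1, eB z (lt_min_iff.1 hz).2.le, ofReal_one, one_mul]
  · obtain ⟨φ, h1, h2, δ, hδ, h3⟩ := coll_pos hA hB.neg (F := fun z => F (-z))
      (fun z => ((hF _).comp (pm_affine (a := -1) (by simp) 0 z)).congr
        (Eventually.of_forall fun w => by simp)) (fun z => e _)
      (fun t => by simpa using hr (-t)) (fun t => by
        have h4 := ((hFs.differentiable (by simp) (-(t : ℂ))).hasFDerivAt.comp (t : ℂ)
          (hasFDerivAt_id (𝕜 := ℝ) (t : ℂ)).neg).fderiv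
        rw [show fderiv ℝ (fun z => F (-z)) t = _ from h4]
        have h5 : (fderiv ℝ F (-t : ℝ) 1).re < 0 :=
          lt_of_le_of_ne (not_lt.1 fun h => h0 (sg _ 0 h)) (hne _)
        simpa using h5) hU hAU
    refine ⟨φ, h1, h2, -1, .inr rfl, min δ δ₀, lt_min hδ hδ₀, fun z hz => ?_⟩
    rw [h3 z (lt_min_iff.1 hz).1, eB _ (by simpa using (lt_min_iff.1 hz).2.le)]
    simp

end Crest.Agent.X212.Lad50.Co
end
end

-- ▼ part X212/Tub3/Nf
section

/-!
# Row 212, PERF (helper3): NF 0 (general position by a parallel shift), NF 1 (plumbed annuli)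
-/

set_option autoImplicit false
set_option linter.unusedSectionVars false
noncomputable section
open Set Filter Topology Function Complex
open scoped ContDiff Manifold
open Crest.Agent.X212.Prf6

namespace Crest.Agent.X212.Tub3

section
variable {M : Type*} [TopologicalSpace M] [ChartedSpace ℂ M] [IsManifold IC ∞ M] [T2Space M]
  {o : Or M} {γ : ℝ → M} {A : ℂ → M}

theorem hasDerivAt_im {g : ℝ → ℂ} {t : ℝ} (h : DifferentiableAt ℝ g t) :
    HasDerivAt (fun s => (g s).im) (deriv g t).im t :=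
  imCLM.hasFDerivAt.comp_hasDerivAt t h.hasDerivAt

/-- transverse crossings are isolated -/
theorem tv_isolated (hA : An o A) {t : ℝ} (h : Tv A γ t) : ∀ᶠ s in 𝓝[≠] t, γ s ∉ core A := by
  obtain ⟨g, h1, h2, -, h4⟩ := h
  filter_upwards [(hasDerivAt_im (h1.differentiableAt (by simp))).eventually_ne (c := 0) h4,
    nhdsWithin_le_nhds h2] with s a b
  rwa [b, hA.mem_core]

theorem tv_finite (hA : An o A) (hγ : Continuous γ) (h : ∀ t, γ t ∈ core A → Tv A γ t) {K : Set ℝ}
    (hK : IsCompact K) : {t ∈ K | γ t ∈ core A}.Finite := by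
  refine (hK.inter_right (hA.isCompact_core.isClosed.preimage hγ)).finite
    (isDiscrete_iff_nhdsNE.2 fun t ht => inf_principal_eq_bot.2 ?_)
  filter_upwards [tv_isolated hA (h t ht.2)] with s hs hm using hs hm.2

/-- the lift in a transverse crossing can be taken smooth on an open set -/
theorem tv_lift (hA : ∀ z, Pm oC o A z) (hγ : ContMDiff IR IC ∞ γ) {t : ℝ} (h : Tv A γ t) :
    ∃ (g : ℝ → ℂ) (W : Set ℝ), IsOpen W ∧ t ∈ W ∧ ContDiffOn ℝ ∞ g W ∧
      (∀ s ∈ W, γ s = A (g s)) ∧ (g t).im = 0 ∧ (deriv g t).im ≠ 0 := by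
  obtain ⟨g, h1, h2, h3, h4⟩ := h
  obtain ⟨g', W, a1, a2, a3, a4, a5, -⟩ := exists_lift (hA (g t)).1 hγ h2.self_of_nhds
  obtain ⟨O, hO, hi⟩ := ld_injOn (hA (g t)).1
  have e : g' =ᶠ[𝓝 t] g := by
    filter_upwards [h2, a1.mem_nhds a2, h1.continuousAt.eventually hO,
      (a3.contDiffAt (a1.mem_nhds a2)).continuousAt.eventually (a4 ▸ hO)] with s b1 b2 b3 b4
    exact hi b4 b3 ((a5 s b2).symm.trans b1)
  exact ⟨g', W, a1, a2, a3, a5, a4 ▸ h3, e.deriv_eq ▸ h4⟩

theorem exists_shift (hA : An o A) (hγ : ContMDiff IR IC ∞ γ) {δ : ℝ} (hδ : 0 < δ) :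
    ∃ r : ℝ, |r| < δ ∧
      ∀ t, γ t ∈ core (fun z => A (z + r * I)) → Tv (fun z => A (z + r * I)) γ t := by
  let f : ℝ → ℝ := fun t => (invFun A (γ t)).im
  have key : ∀ t z, γ t = A z → ∃ g : ℝ → ℂ, ContDiffAt ℝ ∞ g t ∧ (∀ᶠ s in 𝓝 t, γ s = A (g s)) ∧
      g t = z ∧ HasDerivAt f (deriv g t).im t := fun t z e => by
    obtain ⟨g, W, a1, a2, a3, a4, a5, -⟩ := exists_lift (hA.1 z).1 hγ e
    have d := a3.contDiffAt (a1.mem_nhds a2)
    refine ⟨g, d, eventually_of_mem (a1.mem_nhds a2) a5, a4,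
      (hasDerivAt_im (d.differentiableAt (by simp))).congr_of_eventuallyEq ?_⟩
    filter_upwards [a1.mem_nhds a2] with s hs
    exact hA.im_eq ((invFun_eq ⟨_, (a5 s hs).symm⟩).trans (a5 s hs))
  have h0 : MeasureTheory.volume (f '' {t | HasDerivAt f 0 t}) = 0 :=
    MeasureTheory.addHaar_image_eq_zero_of_det_fderivWithin_eq_zero _ (f' := fun _ => 0)
      (fun t ht => by simpa using ht.hasFDerivAt.hasFDerivWithinAt) fun _ _ => by
        simp [ContinuousLinearMap.det]
  obtain ⟨r, hr, hn⟩ : ∃ r ∈ Ioo (-δ) δ, r ∉ f '' {t | HasDerivAt f 0 t} := by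
    by_contra! h
    have := MeasureTheory.measure_mono_null h h0
    simp at this
    linarith
  refine ⟨r, abs_lt.2 hr, fun t ⟨s, hs⟩ => ?_⟩
  obtain ⟨g, a1, a2, a3, a4⟩ := key t _ hs.symm
  refine ⟨fun u => g u - r * I, a1.sub contDiffAt_const, a2.mono fun u hu => by simpa using hu,
    by simp [a3], fun h => hn ⟨t, ?_, ?_⟩⟩
  · rw [deriv_sub_const] at h
    rwa [h] at a4
  · have := hA.im_eq ((invFun_eq (f := A) ⟨_, hs⟩).trans hs.symm)
    simpa using this

variable [CompactSpace M]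

theorem exists_nf {U : Set M} {n : ℕ} {t : Fin n → ℝ} (hU : IsOpen U) (hA : An o A)
    (hc : core A ⊆ U) (h : Cv γ) (hr : range γ ⊆ U) (ht : ∀ i j, ∀ m : ℤ, t i = t j + m → i = j)
    (hT : ∀ j, Tv A γ (t j)) (hall : ∀ s, γ s ∈ core A → ∃ j, ∃ m : ℤ, s = t j + m) :
    ∃ A' B δ θ ε, Nf o U A' B n δ t θ ε ∧ (∀ s : ℝ, A' s = A s) ∧ ∀ s : ℝ, B s = γ s := by
  choose g W w1 w2 w3 w4 w5 w6 using fun j => tv_lift hA.1 h.sm (hT j)
  let θ : Fin n → ℝ := fun j => (g j (t j)).re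
  have hθ : ∀ j, g j (t j) = θ j := fun j => Complex.ext rfl (by simpa using w5 j)
  have e0 : ∀ j, γ (t j) = A (θ j) := fun j => by rw [w4 j _ (w2 j), hθ]
  obtain ⟨ε, e1, e2⟩ : ∃ ε : Fin n → ℝ, (∀ j, ε j = 1 ∨ ε j = -1) ∧
      ∀ j, 0 < ε j * (deriv (g j) (t j)).im := by
    refine ⟨fun j => if 0 < (deriv (g j) (t j)).im then 1 else -1, fun j => ?_, fun j => ?_⟩
    · dsimp only; split_ifs <;> simp
    · dsimp only
      split_ifs with a
      · simpa using a
      · simpa using lt_of_le_of_ne (not_lt.1 a) (w6 j)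
  have e3 : ∀ j, (ε j : ℂ) * ε j = 1 := fun j => by rcases e1 j with a | a <;> simp [a]
  have e4 : ∀ j, |ε j| = 1 := fun j => by rcases e1 j with a | a <;> simp [a]
  let e : Fin n → ℂ → M := fun j z => A (g j (t j + z.re) + ((-ε j * z.im : ℝ) : ℂ))
  have hc' : ∀ j, Continuous fun u : ℝ => t j + u := fun j => by fun_prop
  have he : ∀ j, Pm oC o (e j) 0 := fun j => by
    have hb : HasDerivAt (fun r : ℝ => ((-ε j * r : ℝ) : ℂ)) ((-ε j : ℝ) : ℂ) (0 : ℂ).im := by
      simpa using ((hasDerivAt_id (0 : ℝ)).const_mul (-ε j)).ofReal_comp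
    refine (hA.1 _).comp (pm_pl (a := fun u => g j (t j + u))
      (b := fun r : ℝ => ((-ε j * r : ℝ) : ℂ)) ((w1 j).preimage (hc' j)) isOpen_univ
      ((w3 j).comp (by fun_prop) fun _ h => h)
      (ofRealCLM.contDiff.comp (contDiff_const.mul contDiff_id)).contDiffOn
      (by simpa using w2 j) trivial ?_)
    rw [hb.deriv, deriv_comp_const_add]
    simpa [dd] using e2 j
  have hθ' : ∀ i j, ∀ m : ℤ, θ i = θ j + m → i = j := fun i j m a => by
    obtain ⟨k, hk⟩ := (h.inj (t j) (t i)).1 (by rw [e0, e0, a]; push_cast; rw [hA.per])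
    exact ht _ _ _ hk
  obtain ⟨B, b1, b2, b3, b4⟩ := exists_an h hU hr ht he fun j => by
    filter_upwards [((w1 j).preimage (hc' j)).mem_nhds (x := 0) (by simpa using w2 j)] with u hu
    simp [e, w4 j _ hu]
  obtain ⟨A', a1, a2, a3, a4⟩ := exists_an (e := fun j w => e j (0 + -(ε j * I) * w)) hA.cv hU hc
    hθ' (fun j => Pm.comp (g := e j) (by simpa using he j) (pm_affine (a := -(ε j * I)) (by
      rcases e1 j with a | a <;> simp [a]) 0 0)) fun j => Eventually.of_forall fun u => by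
      simp only [e]
      congr 1
      have : ε j * (ε j * u) = u := by rcases e1 j with a | a <;> simp [a]
      simp [hθ, this]
  have box : ∀ᶠ z in 𝓝 (0 : ℂ), ∀ j, B (t j + z) = A' (θ j + ε j * I * z) :=
    eventually_all.2 fun j => by
      have c : Tendsto (fun z : ℂ => ε j * I * z) (𝓝 0) (𝓝 0) :=
        (by fun_prop : Continuous fun z : ℂ => ε j * I * z).tendsto' _ _ (by simp)
      filter_upwards [b4 j, c.eventually (a4 j)] with z p q
      rw [p, q]
      congr 1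
      linear_combination ((ε j : ℂ) * ε j * z) * I_mul_I - z * e3 j
  obtain ⟨δ₀, p0, q0⟩ := Metric.eventually_nhds_iff_ball.1 box
  have box' : ∀ j (z : ℂ), |z.re| < δ₀ / 2 → |z.im| < δ₀ / 2 →
      B (t j + z) = A' (θ j + ε j * I * z) := fun j z p q =>
    q0 z (mem_ball_zero_iff.2 ((norm_le_abs_re_add_abs_im z).trans_lt (by linarith))) j
  obtain ⟨δ₁, p1, q1⟩ := tube2
    (P := fun z w => A' z = B w → ∃ j, ∃ m : ℤ, |w.re - t j - m| < δ₀ / 2)
    (fun z w k m a b => by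
      obtain ⟨j, l, hl⟩ := a (by rw [a1.per, b1.per, b])
      refine ⟨j, l - m, ?_⟩
      convert hl using 2
      simp; ring)
    fun s u => by
      by_cases a : A' s = B u
      · obtain ⟨j, m, rfl⟩ := hall u ⟨s, by rw [← b3, ← a, a3]⟩
        have c : Continuous fun p : ℂ × ℂ => |p.2.re - t j - m| := by fun_prop
        filter_upwards [(c.tendsto' _ 0 (by simp)).eventually (gt_mem_nhds (half_pos p0))]
          with p hp _ using ⟨j, m, hp⟩
      · have c : Continuous fun p : ℂ × ℂ => (A' p.1, B p.2) :=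
          ((cont_of_pm a1.1).comp continuous_fst).prodMk ((cont_of_pm b1.1).comp continuous_snd)
        filter_upwards [c.continuousAt.eventually (isClosed_diagonal.isOpen_compl.mem_nhds a)]
          with p b e using (b e).elim
  have sep : ∀ τ : Fin n → ℝ, (∀ i j, ∀ m : ℤ, τ i = τ j + m → i = j) → ∀ᶠ δ in 𝓝 (0 : ℝ),
      ∀ i j, ∀ m : ℤ, |τ i - τ j - m| < 2 * δ → i = j ∧ m = 0 := fun τ hτ => by
    refine eventually_all.2 fun i => eventually_all.2 fun j => ?_
    by_cases a : i = j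
    · subst a
      filter_upwards [gt_mem_nhds (one_half_pos (α := ℝ))] with δ hδ m hm
      refine ⟨rfl, Int.abs_lt_one_iff.1 ?_⟩
      rw [sub_self, zero_sub, abs_neg] at hm
      exact_mod_cast (show |(m : ℝ)| < 1 by linarith)
    · obtain ⟨η, hη, b⟩ := exists_sep (a := τ i - τ j) fun m c => a (hτ i j m (by linarith))
      filter_upwards [gt_mem_nhds (half_pos hη)] with δ hδ m hm
      linarith [b m]
  obtain ⟨δ, ⟨d1, d2, d3, d4⟩, d5⟩ := ((((sep t ht).and ((sep θ hθ').and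
    ((gt_mem_nhds (half_pos p0)).and (gt_mem_nhds p1)))).filter_mono
    (nhdsWithin_le_nhds (s := Ioi 0))).and self_mem_nhdsWithin).exists
  refine ⟨A', B, δ, θ, ε, ⟨a1, b1, a2, b2, d5, e1, fun j z p q => box' j z (p.trans d3) (q.trans d3),
    fun z w p q a => ?_, d1, d2⟩, a3, b3⟩
  obtain ⟨j, m, hm⟩ := q1 z w (p.trans d4) (q.trans d4) a
  refine ⟨j, m, ?_⟩
  have b := box' j (w - t j - m) (by simpa using hm) (by simpa using q.trans d3)
  rw [show t j + (w - t j - m) = w + (-m : ℤ) by push_cast; ring, b1.per, ← a] at b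
  have c := a1.im_eq b
  rw [c] at p
  simpa [abs_mul, e4] using p

end

theorem nf0 : Nf0 := fun _ _ _ _ hA h hδ => by
  obtain ⟨r, h1, h2⟩ := exists_shift hA h.sm hδ
  exact ⟨r, h1, h2, (tv_finite (hA.shift _) h.sm.continuous h2 (isCompact_Icc (a := 0) (b := 1))).subset
    fun _ ht => ⟨Ico_subset_Icc_self ht.1, ht.2⟩⟩

theorem nf1 : Nf1 := fun _ _ _ _ _ _ hU hA hc h hr ht hT hall => exists_nf hU hA hc h hr ht hT hall

end Crest.Agent.X212.Tub3
end
end

-- ▼ part X212/Arx49/Dual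

/-!
# Row 212, PERF / DUAL2 (helper49): a common dual of two disjoint non-separating curves
-/

set_option autoImplicit false
set_option linter.unusedSectionVars false
noncomputable section
open Set Filter Topology Function Complex Metric
open scoped ContDiff Manifold

namespace Crest.Agent.X212.Arx49

open Crest.Agent.X212.Prf6

/-- every component of `O \ K` meets a neighbourhood `N` of `K` -/
theorem reach {M : Type*} [TopologicalSpace M] [LocallyConnectedSpace M] {O K N : Set M}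
    (hO : IsPreconnected O) (ho : IsOpen (O \ K)) (hN : IsOpen N) (hK : O ∩ K ⊆ N)
    (hne : (O ∩ N).Nonempty) {y : M} (hy : y ∈ O \ K) :
    ∃ z ∈ N, z ∈ connectedComponentIn (O \ K) y := by
  by_contra hn
  have h1 : IsOpen ((O \ K) \ connectedComponentIn (O \ K) y) := isOpen_iff_mem_nhds.2 fun x hx =>
    mem_of_superset (ho.connectedComponentIn.mem_nhds (mem_connectedComponentIn hx.1))
      fun z hz => ⟨connectedComponentIn_subset _ _ hz, fun h => hx.2 (by
        rw [connectedComponentIn_eq h, ← connectedComponentIn_eq hz]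
        exact mem_connectedComponentIn hx.1)⟩
  obtain ⟨z, -, h2, h3⟩ := hO _ _ (ho.connectedComponentIn (x := y)) (hN.union h1)
    (fun x hx => by
      by_cases h : x ∈ connectedComponentIn (O \ K) y
      · exact Or.inl h
      · by_cases h' : x ∈ K
        · exact Or.inr (Or.inl (hK ⟨hx, h'⟩))
        · exact Or.inr (Or.inr ⟨⟨hx, h'⟩, h⟩))
    ⟨y, hy.1, mem_connectedComponentIn hy⟩ (hne.mono (inter_subset_inter_right _ subset_union_left))
  exact h3.elim (fun h => hn ⟨z, h, h2⟩) fun h => h.2 h2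

variable {M : Type*} [TopologicalSpace M] [ChartedSpace ℂ M] [IsManifold IC ∞ M] [T2Space M]
  {o : Or M} {A A' : ℂ → M}

theorem tv_congr {γ γ' : ℝ → M} {t : ℝ} (h : Tv A γ t) (e : γ' =ᶠ[𝓝 t] γ) : Tv A γ' t := by
  obtain ⟨g, h1, h2, h3⟩ := h
  exact ⟨g, h1, (h2.and e).mono fun _ h => h.2.trans h.1, h3⟩

/-- at a lowest point of `core A'` in the chart `A` non-horizontal curves are transverse -/
theorem tv_min (hA : ∀ z, Pm oC o A z) (hA' : ∀ z, Pm oC o A' z) {c : ℝ → ℂ} {t : ℝ}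
    (hc : ContDiffAt ℝ ∞ c t) (hd : (deriv c t).im ≠ 0) (hm : A (c t) ∈ core A')
    (hl : ∀ᶠ z in 𝓝 (c t), A z ∈ core A' → (c t).im ≤ z.im) : Tv A' (fun s => A (c s)) t := by
  obtain ⟨u, hu⟩ := hm
  have hu' : A' u = A (c t) := hu
  have a := (hA (c t)).1
  have a' := (hA' u).1
  have e' : IsLocalDiffeomorphAt IC IC ∞ a'.localInverse (A (c t)) :=
    hu' ▸ a'.localInverse_isLocalDiffeomorphAt
  have hh := Cyl58.ld_comp e' a
  set h := a'.localInverse ∘ A with hh'
  have h0 : h (c t) = u := by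
    rw [hh', comp_apply, ← hu', a'.localInverse_left_inv a'.localInverse_mem_target]
  have h1 : ContDiffAt ℝ ∞ h (c t) := contMDiffAt_iff_contDiffAt.1 hh.contMDiffAt
  have h2 := (h1.differentiableAt (by simp)).hasFDerivAt
  have h3 : Injective (fderiv ℝ h (c t)) := by
    have := ld_inj hh
    rwa [mfderiv_eq_fderiv] at this
  have h4 := h2.comp_hasDerivAt t (hc.differentiableAt (by simp)).hasDerivAt
  refine ⟨h ∘ c, h1.comp t hc, ?_, by simp [h0], fun h5 => hd ?_⟩
  · have := a'.localInverse_eventuallyEq_right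
    rw [hu'] at this
    exact ((a.contMDiffAt.continuousAt.comp hc.continuousAt).eventually this).mono
      fun s hs => hs.symm
  · set k : ℝ → ℂ := fun τ => a.localInverse (A' τ) with hk
    have k0 : k u = c t := by
      simp only [hk, hu', a.localInverse_left_inv a.localInverse_mem_target]
    have oR : ContMDiff IR IC ∞ (fun τ : ℝ => (τ : ℂ)) := ofRealCLM.contDiff.contMDiff
    have s1 : ContMDiffAt IR IC ∞ (fun τ : ℝ => A' τ) u := a'.contMDiffAt.comp u (oR u)
    have k1 : ContDiffAt ℝ ∞ k u := contMDiffAt_iff_contDiffAt.1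
      (ContMDiffAt.comp (g := a.localInverse) u (by
        simp only [hu']; exact a.localInverse_contMDiffAt) s1)
    have k2 := (k1.differentiableAt (by simp)).hasDerivAt
    have k3 : ∀ᶠ τ : ℝ in 𝓝 u, A (k τ) = A' τ := s1.continuousAt.eventually (by
      simp only [hu']; exact a.localInverse_eventuallyEq_right)
    have k4 : (deriv k u).im = 0 := by
      refine IsLocalMin.hasDerivAt_eq_zero ?_ (der_im k2)
      filter_upwards [k3, k1.continuousAt.eventually (k0 ▸ hl)] with τ b1 b2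
      exact b2 (b1 ▸ ⟨τ, rfl⟩)
    have k5 : fderiv ℝ h (c t) (deriv k u) = 1 := by
      have b1 := h2.comp_hasDerivAt_of_eq u k2 k0.symm
      have b2 : HasDerivAt (h ∘ k) 1 u := by
        refine ofRealCLM.hasDerivAt.congr_of_eventuallyEq ?_
        filter_upwards [k3, (oR u).continuousAt.eventually a'.localInverse_eventuallyEq_left]
          with τ b1 b2
        simp only [hh', comp_apply, b1]
        exact b2
      exact b1.unique b2
    rw [h4.deriv] at h5
    have k6 : deriv c t = (fderiv ℝ h (c t) (deriv c t)).re • deriv k u := h3 (by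
      rw [map_smul, k5]
      exact Complex.ext (by simp) (by simpa using h5))
    rw [k6]; simp [k4]

/-- the case where `core A'` enters the upper collar of `A` -/
theorem dual0 {U : Set M} (hU : IsOpen U) (hA : An o A) (hA' : An o A') (h1 : core A ⊆ U)
    (h1' : core A' ⊆ U) (hd : Disjoint (core A) (core A')) (hc : IsPreconnected (U \ core A))
    (hc' : IsPreconnected (U \ core A')) {z₁ : ℂ} (hz : A z₁ ∈ core A') (hz0 : 0 ≤ z₁.im)
    (hzU : ∀ w : ℂ, 0 ≤ w.im → w.im ≤ z₁.im → A w ∈ U) :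
    ∃ γ, Cv γ ∧ range γ ⊆ U ∧ ∃ t t' : ℝ, (∀ s, γ s ∈ core A → ∃ n : ℤ, s = t + n) ∧ Tv A γ t ∧
      (∀ s, γ s ∈ core A' → ∃ n : ℤ, s = t' + n) ∧ Tv A' γ t' := by
  have := ChartedSpace.locallyConnectedSpace ℂ M
  have cA := cont_of_pm hA.1
  have oA := isOpenMap_of_pm hA.1
  have cl := hA.isCompact_core.isClosed
  have cl' := hA'.isCompact_core.isClosed
  obtain ⟨z₀, ⟨b1, b2⟩, hmin⟩ := ((isCompact_bx 0 z₁.im).inter_right (cl'.preimage cA)).exists_isMinOn
    (by
      obtain ⟨w, hw, e⟩ := hA.mem_bx.2 (show z₁.im ∈ Icc 0 z₁.im from ⟨hz0, le_rfl⟩)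
      exact ⟨w, hw, show A w ∈ core A' from e ▸ hz⟩) continuous_im.continuousOn
  set s₀ := z₀.im with hs₀
  set a := z₀.re with ha
  have s0 : 0 < s₀ := lt_of_le_of_ne b1.2.1 fun e =>
    disjoint_left.1 hd (hA.mem_core.2 e.symm) b2
  have free : ∀ w : ℂ, 0 ≤ w.im → w.im < s₀ → A w ∉ core A' := fun w a1 a2 a3 => by
    obtain ⟨w', hw, e⟩ := hA.mem_bx.2 (show w.im ∈ Icc 0 z₁.im from ⟨a1, a2.le.trans b1.2.2⟩)
    have : s₀ ≤ w'.im := hmin ⟨hw, show A w' ∈ core A' from e ▸ a3⟩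
    linarith [hA.im_eq e]
  have vim : ∀ t : ℝ, ((a : ℂ) + t * I).im = t := fun t => by simp
  have ez : (a : ℂ) + s₀ * I = z₀ := re_add_im z₀
  have tv : ∀ (T t : ℝ), T ≠ 0 → T * t = s₀ → Tv A' (fun s => A (a + (T * s : ℝ) * I)) t :=
    fun T t hT e => by
      obtain ⟨i1, -⟩ := imm_iff.1 (((imm_vert a (T * t + 0)).aff hT))
      simp only [add_zero] at i1
      have i2 : HasDerivAt (fun s : ℝ => (a : ℂ) + (T * s : ℝ) * I) ((T * 1 : ℝ) * I) t :=
        ((((hasDerivAt_id' t).const_mul T).ofReal_comp).mul_const I).const_add _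
      refine tv_min hA.1 hA'.1 i1 (by rw [i2.deriv]; simpa using hT) (by rw [e, ez]; exact b2) ?_
      rw [e, ez]
      filter_upwards [continuous_im.continuousAt.eventually (lt_mem_nhds s0)] with z a1 a2
      exact not_lt.1 fun a3 => free z a1.le a3 a2
  obtain ⟨δ, hδ, tube⟩ := hA.tube (hU.sdiff cl') fun x hx => ⟨h1 hx, disjoint_left.1 hd hx⟩
  set σ : Set M := (fun t : ℝ => A (a + t * I)) '' Icc 0 s₀ with hσ
  have cσ : IsClosed σ := (isCompact_Icc.image (by fun_prop)).isClosed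
  have σim : ∀ w, A w ∈ σ → w.im ∈ Icc 0 s₀ := fun w ⟨t, ht, e⟩ => by
    rw [← hA.im_eq e, vim]; exact ht
  set V : Set M := (U \ core A') \ (core A ∪ σ) with hV
  have oV : IsOpen V := (hU.sdiff cl').sdiff (cl.union cσ)
  have V2 : ((U \ core A) \ core A') \ σ = V := by
    ext x; simp only [hV, Set.mem_sdiff, mem_union]; tauto
  set L : Set M := A '' {z : ℂ | -δ < z.im ∧ z.im < 0} with hL
  set S : Set M := A '' {z : ℂ | 0 < z.im ∧ z.im < s₀} with hS
  set Q : Set M := A '' (Ioo a (a + 1) ×ℂ Ioo 0 s₀) with hQ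
  have LV : L ⊆ V := by
    rintro _ ⟨z, hz, rfl⟩
    refine ⟨tube z (abs_lt.2 ⟨hz.1, by linarith [hz.2]⟩), ?_⟩
    rintro (h | h)
    · exact hz.2.ne (hA.mem_core.1 h)
    · exact hz.2.not_ge (σim z h).1
  have SV : S ⊆ (U \ core A) \ core A' := by
    rintro _ ⟨z, hz, rfl⟩
    exact ⟨⟨hzU z hz.1.le (hz.2.le.trans b1.2.2), fun h => hz.1.ne' (hA.mem_core.1 h)⟩,
      free z hz.1.le hz.2⟩
  have QS : Q ⊆ S := image_mono fun z hz => hz.2
  have QV : Q ⊆ V := fun x hx => V2.le ⟨SV (QS hx), by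
    obtain ⟨z, hz, rfl⟩ := hx
    rintro ⟨t, -, e⟩
    obtain ⟨n, hn⟩ := (hA.2 _ _).1 e
    have h2 : z.re = a + n := by rw [hn]; simp
    have h3 : (0 : ℤ) < n := by exact_mod_cast (show (0 : ℝ) < n by linarith [hz.1.1])
    have h4 : n < (1 : ℤ) := by exact_mod_cast (show (n : ℝ) < 1 by linarith [hz.1.2])
    omega⟩
  have SQ : ∀ x ∈ S, x ∉ σ → x ∈ Q := by
    rintro _ ⟨z, hz, rfl⟩ h
    have h2 := Int.floor_le (z.re - a)
    have h3 := Int.lt_floor_add_one (z.re - a)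
    have e := hA.per z (-⌊z.re - a⌋)
    refine ⟨_, ⟨⟨lt_of_le_of_ne (by simp; linarith) fun h4 => h ⟨z.im, ⟨hz.1.le, hz.2.le⟩, ?_⟩,
      by simp; linarith⟩, by simpa using hz⟩, e⟩
    rw [← e]
    exact congrArg A (Complex.ext (by simpa using h4) (by simp))
  have cL : IsPreconnected L := (strip_conn _ _).image _ cA.continuousOn
  have cS : IsPreconnected S := (strip_conn _ _).image _ cA.continuousOn
  have cQ : IsPreconnected Q :=
    (((convex_halfSpace_re_gt a).inter (convex_halfSpace_re_lt (a + 1))).inter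
      ((convex_halfSpace_im_gt 0).inter (convex_halfSpace_im_lt s₀))).isPreconnected.image _
      cA.continuousOn
  have oS : ∀ u v : ℝ, IsOpen (A '' {z : ℂ | u < z.im ∧ z.im < v}) := fun u v =>
    oA _ ((isOpen_lt continuous_const continuous_im).inter
      (isOpen_lt continuous_im continuous_const))
  have y0 : A ((-δ / 2 : ℝ) * I) ∈ L := ⟨_, by constructor <;> simp <;> linarith, rfl⟩
  set W := connectedComponentIn V (A ((-δ / 2 : ℝ) * I)) with hW
  have LW : L ⊆ W := cL.subset_connectedComponentIn y0 LV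
  have WV : W ⊆ V := connectedComponentIn_subset _ _
  obtain ⟨ε, hε, d1, d2⟩ := (tv 1 s₀ one_ne_zero (one_mul _)).sides one_pos
  obtain ⟨s₁, s1, FV⟩ : ∃ s₁ > s₀, ∀ t ∈ Ioc s₀ s₁, A (a + t * I) ∈ V := by
    have h2 : ∀ᶠ t : ℝ in 𝓝 s₀, A (a + t * I) ∈ U :=
      (show Continuous fun t : ℝ => A (a + t * I) by fun_prop).continuousAt.eventually
        (hU.mem_nhds (by simp only [ez]; exact h1' b2))
    obtain ⟨s₁, a1, a2⟩ := mem_nhdsGT_iff_exists_Ioc_subset.1 (d1.and (nhdsWithin_le_nhds h2))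
    refine ⟨s₁, a1, fun t ht => ?_⟩
    obtain ⟨⟨z, a3, a4, -⟩, a5⟩ := a2 ht
    rw [one_mul] at a3
    refine ⟨⟨a5, fun h => ?_⟩, ?_⟩
    · rw [a3, hA'.mem_core] at h
      rw [h, mul_zero] at a4
      exact lt_irrefl _ a4
    · rintro (h | h)
      · rw [hA.mem_core, vim] at h
        linarith [ht.1]
      · have := (σim _ h).2
        rw [vim] at this
        linarith [ht.1]
  have FW : ∀ t ∈ Ioc s₀ s₁, A (a + t * I) ∈ W := fun t ht => by
    have join : ∀ z ∈ W, z ∈ connectedComponentIn V (A (a + t * I)) → A (a + t * I) ∈ W :=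
      fun z a1 a2 => by
        rw [hW, connectedComponentIn_eq a1, ← connectedComponentIn_eq a2]
        exact mem_connectedComponentIn (FV t ht)
    obtain ⟨z, ⟨w, hw, rfl⟩, hz⟩ := reach hc' oV (oS (-δ) s₀) (by
      rintro x ⟨hx, ⟨u, rfl⟩ | ⟨u, hu, rfl⟩⟩
      · exact ⟨u, by constructor <;> simp <;> linarith, rfl⟩
      · refine ⟨_, ⟨by rw [vim]; linarith [hu.1], ?_⟩, rfl⟩
        rw [vim]
        refine lt_of_le_of_ne hu.2 fun e => hx.2 ?_
        simp only [e, ez]; exact b2)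
      ⟨_, (LV y0).1, _, by constructor <;> simp <;> linarith, rfl⟩ (FV t ht)
    have zV := connectedComponentIn_subset _ _ hz
    rcases lt_trichotomy w.im 0 with h | h | h
    · exact join _ (LW ⟨w, ⟨hw.1, h⟩, rfl⟩) hz
    · exact absurd (Or.inl (hA.mem_core.2 h)) zV.2
    have zS : A w ∈ S := ⟨w, ⟨h, hw.2⟩, rfl⟩
    have FC : ∀ u ∈ Ioc s₀ s₁, A (a + u * I) ∈ connectedComponentIn V (A (a + t * I)) :=
      fun u hu => (isPreconnected_Ioc.image (fun t : ℝ => A (a + t * I))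
        (by fun_prop)).subset_connectedComponentIn ⟨t, ht, rfl⟩
          (by rintro _ ⟨v, hv, rfl⟩; exact FV v hv) ⟨u, hu, rfl⟩
    have side : ∀ η > (0 : ℝ), ∀ ε' : ℝ, ε' = 1 ∨ ε' = -1 → ∃ p : ℂ, 0 < ε' * p.im ∧ |p.im| < η ∧
        A' p ∈ connectedComponentIn V (A (a + t * I)) ∪ S := fun η hη ε' hε' => by
      obtain ⟨ε, hε, d1, d2⟩ := (tv 1 s₀ one_ne_zero (one_mul _)).sides hη
      obtain ⟨u, ⟨p, a1, a2, a3⟩, hu⟩ := (d1.and (Ioc_mem_nhdsGT s1)).exists
      obtain ⟨v, ⟨q, a4, a5, a6⟩, hv⟩ := (d2.and (Ioo_mem_nhdsLT s0)).exists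
      rw [one_mul] at a1 a4
      by_cases e : ε' = ε
      · exact ⟨p, e ▸ a2, a3, Or.inl (a1 ▸ FC u hu)⟩
      · refine ⟨q, ?_, a6, Or.inr (a4 ▸ ⟨_, by rw [mem_ofPred, vim]; exact hv, rfl⟩)⟩
        rcases hε with rfl | rfl <;> rcases hε' with rfl | rfl <;> first | exact absurd rfl e | linarith
    have cV : IsPreconnected ((U \ core A) \ core A') := hA'.conn_diff (hU.sdiff cl) hc
      (fun x hx => ⟨h1' hx, disjoint_right.1 hd hx⟩)
      (isPreconnected_connectedComponentIn.union _ hz zS cS)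
      (union_subset ((connectedComponentIn_subset _ _).trans (V2.ge.trans sdiff_subset)) SV)
      (fun η hη => by
        obtain ⟨p, a1, a2, a3⟩ := side η hη 1 (Or.inl rfl)
        exact ⟨p, ⟨by linarith, (abs_lt.1 a2).2⟩, a3⟩)
      (fun η hη => by
        obtain ⟨p, a1, a2, a3⟩ := side η hη (-1) (Or.inr rfl)
        exact ⟨p, ⟨(abs_lt.1 a2).1, by linarith⟩, a3⟩)
    obtain ⟨z', a1, a2⟩ := reach cV (K := σ) (V2 ▸ oV) (oS 0 s₀) (by
      rintro x ⟨hx, u, hu, rfl⟩
      refine ⟨_, ⟨?_, ?_⟩, rfl⟩ <;> rw [vim]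
      · exact lt_of_le_of_ne hu.1 fun e => hx.1.2 (hA.mem_core.2 (by rw [vim, e]))
      · refine lt_of_le_of_ne hu.2 fun e => hx.2 ?_
        simp only [e, ez]; exact b2) ⟨_, SV zS, zS⟩ (V2.ge (LV y0))
    rw [V2] at a2
    have QW : Q ⊆ W := by
      rw [hW, connectedComponentIn_eq a2]
      exact cQ.subset_connectedComponentIn (SQ _ a1 fun h => (WV a2).2 (Or.inr h)) QV
    exact join _ (QW (SQ _ zS fun h => zV.2 (Or.inr h))) hz
  obtain ⟨γ, T, k1, k2, k3, k4⟩ := arc o (B := fun z => A (a + z)) (Ω := {z | |z.re| < 1 / 2})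
    (isOpen_lt (by fun_prop) continuous_const)
    (fun z _ => by simpa using (hA.affine a (Or.inl rfl)).1 z)
    (fun z hz w hw e => by
      obtain ⟨n, hn⟩ := (hA.2 _ _).1 e
      have h2 : w.re = z.re + n := by simpa [add_assoc] using congrArg re hn
      have h3 := abs_lt.1 (show |z.re| < 1 / 2 from hz)
      have h4 := abs_lt.1 (show |w.re| < 1 / 2 from hw)
      have h5 : (-1 : ℤ) < n := by exact_mod_cast (show (-1 : ℝ) < n by linarith)
      have h6 : n < (1 : ℤ) := by exact_mod_cast (show (n : ℝ) < 1 by linarith)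
      obtain rfl : n = 0 := by omega
      simpa using hn.symm)
    oV.connectedComponentIn isPreconnected_connectedComponentIn s0.le s1
    (lt_min (half_pos hδ) (show (0 : ℝ) < 1 / 4 by norm_num)) (fun t _ => by simp)
    (fun z hz => by
      have := (abs_re_le_norm z).trans ((mem_closedBall_zero_iff.1 hz).trans (min_le_right _ _))
      exact this.trans_lt (by norm_num))
    (fun t ht h => (WV h).2 (Or.inr ⟨t, ht, rfl⟩)) FW
    (fun z hz h => LW ⟨a + z, ⟨by
      have := abs_le.1 ((abs_im_le_norm z).trans (hz.trans (min_le_left _ _)))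
      simp; linarith, by simpa using h⟩, rfl⟩)
  have T0 : 0 < T := s0.trans k2
  have key : ∀ t, γ t ∈ V ∨ (T * Int.fract t ∈ Icc 0 s₀ ∧
      γ t = A (a + (T * Int.fract t : ℝ) * I)) := fun t => by
    have e : γ t = γ (Int.fract t) := ((k1.inj _ _).2 ⟨⌊t⌋, by simp⟩).symm
    rcases lt_or_ge s₀ (T * Int.fract t) with h | h
    · exact Or.inl (e ▸ WV (k3 _ ⟨Int.fract_nonneg t, Int.fract_lt_one t⟩ h))
    · exact Or.inr ⟨⟨mul_nonneg T0.le (Int.fract_nonneg t), h⟩,
        e.trans (k4 _ (Int.fract_nonneg t) h).self_of_nhds⟩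
  have eT : T * (s₀ / T) = s₀ := by field_simp
  refine ⟨γ, k1, ?_, 0, s₀ / T, fun s h => ?_, ?_, fun s h => ?_,
    tv_congr (tv T _ T0.ne' eT) (k4 _ (by positivity) eT.le)⟩
  · rintro _ ⟨t, rfl⟩
    rcases key t with h | ⟨h, e⟩
    · exact h.1.1
    · rw [e]; exact hzU _ (by rw [vim]; exact h.1) (by rw [vim]; exact h.2.trans b1.2.2)
  · rcases key s with h' | ⟨-, e⟩
    · exact absurd (Or.inl h) h'.2
    · rw [e, hA.mem_core, vim] at h
      have := (mul_eq_zero.1 h).resolve_left T0.ne'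
      exact ⟨⌊s⌋, by rw [Int.fract] at this; linarith⟩
  · have i2 : HasDerivAt (fun s : ℝ => (a : ℂ) + (T * s : ℝ) * I) ((T * 1 : ℝ) * I) 0 :=
      ((((hasDerivAt_id' 0).const_mul T).ofReal_comp).mul_const I).const_add _
    obtain ⟨i1, -⟩ := imm_iff.1 (((imm_vert a (T * 0 + 0)).aff T0.ne'))
    simp only [add_zero] at i1
    exact ⟨_, i1, k4 0 le_rfl (by simpa using s0.le), by simp,
      by rw [i2.deriv]; simpa using T0.ne'⟩
  · rcases key s with h' | ⟨h', e⟩
    · exact absurd h h'.1.2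
    · rw [e] at h
      have h2 : T * Int.fract s = s₀ := le_antisymm h'.2 (not_lt.1 fun h3 =>
        free _ (by rw [vim]; exact h'.1) (by rw [vim]; exact h3) h)
      refine ⟨⌊s⌋, ?_⟩
      rw [← h2, mul_div_cancel_left₀ _ T0.ne', Int.fract_add_floor]

/-- **DUAL 2** -/
theorem dual2 : Dual2 := by
  intro X U A A' hU hA hA' h1 h1' hd hc hc'
  obtain ⟨δ, hδ, tube⟩ := hA.tube hU h1
  have im1 : (((δ / 2 : ℝ) : ℂ) * I).im = δ / 2 := by simp
  have sub : core A' ⊆ U \ core A := fun x hx => ⟨h1' hx, disjoint_right.1 hd hx⟩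
  obtain ⟨φ, hφ, hn, hy⟩ := hom_gen X.o (hU.sdiff hA.isCompact_core.isClosed) hc
    (sub (mem_core (A := A') (z := 0) rfl)) (y := A ((δ / 2 : ℝ) * I))
    ⟨tube _ (by rw [im1, abs_of_pos (half_pos hδ)]; linarith),
      fun h => (half_pos hδ).ne' (im1 ▸ hA.mem_core.1 h)⟩
  have hg := hφ.mem 1
  have hn1 := hn.near 1
  generalize φ 1 = g at hg hn1 hy
  have gW : ∀ x, g x ∈ U \ core A ↔ x ∈ U \ core A := mem_iff_of_fix fun x hx => hn1.fix hx
  have gU : ∀ x, g x ∈ U ↔ x ∈ U := mem_iff_of_fix fun x hx => hn1.fix fun h => hx h.1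
  have gA : ∀ x ∈ core A, g x = x := fun x hx => hn1.fix fun h => h.2 hx
  have sub' : core (g ∘ A') ⊆ U \ core A := by
    rw [core_comp]; rintro _ ⟨x, hx, rfl⟩; exact (gW x).2 (sub hx)
  obtain ⟨γ, k1, k2, t, t', k3, k4, k5, k6⟩ := dual0 hU hA (hA'.comp hg) h1
    (sub'.trans sdiff_subset) (disjoint_right.2 fun x hx => (sub' hx).2) hc (by
      have := hc'.image g (G_cont hg).continuousOn
      rw [image_sdiff g.injective, ← core_comp] at this
      convert this using 2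
      ext x
      obtain ⟨y, rfl⟩ := g.surjective x
      rw [g.injective.mem_set_image, gU]) (z₁ := (δ / 2 : ℝ) * I)
    (hy ▸ mem_core (A := g ∘ A') (z := 0) rfl) (by rw [im1]; linarith)
    fun w a b => tube w (by rw [abs_of_nonneg a]; linarith)
  refine ⟨fun s => g⁻¹ (γ s), cv_map (inv_mem hg) k1, ?_, t, t', fun s h => k3 s ?_, ?_,
    fun s h => k5 s ?_, ?_⟩
  · rintro _ ⟨s, rfl⟩
    exact (gU _).1 (by simpa using k2 ⟨s, rfl⟩)
  · have := gA _ h
    rw [show γ s = g⁻¹ (γ s) by simpa using this]; exact h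
  · refine tv_congr k4 ((k1.sm.continuous.tendsto t).eventually (hn1.inv.at fun h => h.2 ?_))
    obtain ⟨c, -, c2, c3, -⟩ := k4
    rw [c2.self_of_nhds]; exact mem_core c3
  · rw [core_comp]
    exact ⟨_, h, by simp⟩
  · obtain ⟨c, c1, c2, c3⟩ := k6
    exact ⟨c, c1, c2.mono fun s hs => by simp [hs], c3⟩

end Crest.Agent.X212.Arx49
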